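import Mathlib

/-!
# P069: basic definitions (asymptotic convexity moduli)
-/

namespace Vale.Agent.P069

variable {X : Type*} [NormedAddCommGroup X] [NormedSpace ℝ X]

/-- The closed subspaces of finite codimension of `X`. -/
def cof (X : Type*) [NormedAddCommGroup X] [NormedSpace ℝ X] : Set (Submodule ℝ X) :=
  {F | IsClosed (F : Set X) ∧ FiniteDimensional ℝ (X ⧸ F)}

/-- `N` is an equivalent norm on `X`. -/
def IsEquivalentNorm (N : Seminorm ℝ X) : Prop :=
  ∃ c C : ℝ, 0 < c ∧ ∀ x, c * ‖x‖ ≤ N x ∧ N x ≤ C * ‖x‖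

/-- The modulus of asymptotic uniform convexity
`inf_{N x = 1} sup_{F ∈ cof X} inf_{y ∈ F, N y = 1} (N (x + t y) - 1)`. -/
noncomputable def aucModulus (N : Seminorm ℝ X) (t : ℝ) : ℝ :=
  ⨅ x : {x : X // N x = 1}, ⨆ F : cof X, ⨅ y : {y : X // y ∈ F.1 ∧ N y = 1},
    (N (x.1 + t • y.1) - 1)

/-- The modulus of asymptotic midpoint uniform convexity
`inf_{N x = 1} sup_{F ∈ cof X} inf_{y ∈ F, N y = 1} (max {N (x + t y), N (x - t y)} - 1)`. -/
noncomputable def amucModulus (N : Seminorm ℝ X) (t : ℝ) : ℝ :=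
  ⨅ x : {x : X // N x = 1}, ⨆ F : cof X, ⨅ y : {y : X // y ∈ F.1 ∧ N y = 1},
    (max (N (x.1 + t • y.1)) (N (x.1 - t • y.1)) - 1)

/-- `N` is asymptotically uniformly convex. -/
def IsAUC (N : Seminorm ℝ X) : Prop := ∀ t : ℝ, 0 < t → 0 < aucModulus N t

/-- `N` is asymptotically midpoint uniformly convex. -/
def IsAMUC (N : Seminorm ℝ X) : Prop := ∀ t : ℝ, 0 < t → 0 < amucModulus N t

/-- `X` is reflexive: the canonical embedding into the bidual is onto. -/
def IsReflexive (X : Type*) [NormedAddCommGroup X] [NormedSpace ℝ X] : Prop :=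
  Function.Surjective (NormedSpace.inclusionInDoubleDual ℝ X)

end Vale.Agent.P069
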