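import Vale.Agent.Lib.P069.NonAUC

/-!
# P069: separability, positivity of the midpoint modulus, sanity checks of the definitions
-/

open scoped ENNReal
open Filter Topology

namespace Vale.Agent.P069

instance separableSpace_SX : TopologicalSpace.SeparableSpace SX := by
  let S : Submodule ℝ SX := Submodule.span ℝ (Set.range fun p : ℕ × List ℕ => ev p.1 p.2)
  have hS : TopologicalSpace.IsSeparable (S : Set SX) :=
    (Set.countable_range _).isSeparable.span
  have hres : ∀ (n : ℕ) (O : Finset (List ℕ)) (f : HH), emb n (res O f) ∈ S := by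
    intro n O f
    have : emb n (res O f) = ∑ t ∈ O, f t • ev n t := by
      rw [← embL_apply, res_def, map_sum]
      refine Finset.sum_congr rfl fun t _ => ?_
      rw [embL_apply, ev, ← emb_smul, ← lp.single_smul, smul_eq_mul, mul_one]
    rw [this]
    exact S.sum_mem fun t _ => S.smul_mem _ (Submodule.subset_span ⟨(n, t), rfl⟩)
  have hsupp : ∀ (N : ℕ) (O : Finset (List ℕ)) (x : SX), Supp N O x → x ∈ S := by
    intro N O x hx
    have h1 : x = ∑ n ∈ Finset.range N, emb n (res O (toHH n (x n))) := by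
      ext k
      rw [lp.coeFn_sum, Finset.sum_apply]
      by_cases hk : k < N
      · rw [Finset.sum_eq_single k]
        · rw [emb, lp.single_apply, Pi.single_eq_same, hx.1 k hk, LinearEquiv.symm_apply_apply]
        · intro b _ hb
          rw [emb, lp.single_apply, Pi.single_eq_of_ne hb.symm]
        · intro h; exact absurd (Finset.mem_range.mpr hk) h
      · rw [hx.2 k (not_lt.mp hk)]
        symm
        refine Finset.sum_eq_zero fun b hb => ?_
        rw [Finset.mem_range] at hb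
        rw [emb, lp.single_apply, Pi.single_eq_of_ne (by omega)]
    rw [h1]
    exact S.sum_mem fun n _ => hres n O _
  have hd : closure (S : Set SX) = Set.univ := by
    rw [Set.eq_univ_iff_forall]
    intro x
    rw [Metric.mem_closure_iff]
    intro ε hε
    obtain ⟨N, O, x', -, hx', hxx'⟩ := exists_supp_approx x hε
    exact ⟨x', hsupp N O x' hx', by rwa [dist_eq_norm]⟩
  have := hS.closure
  rw [hd] at this
  exact TopologicalSpace.isSeparable_univ_iff.mp this

theorem isAMUC_SX : IsAMUC (normSeminorm ℝ SX) := by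
  intro t ht
  refine lt_of_lt_of_le ?_ (amucModulus_SX_ge ht)
  have h1 : (1 : ℝ) < 1 + t ^ 2 / 26 := by
    have : 0 < t ^ 2 / 26 := by positivity
    linarith
  have h2 := Real.sqrt_lt_sqrt (by norm_num) h1
  rw [Real.sqrt_one] at h2
  linarith

theorem amucModulus_SX_power {t : ℝ} (ht : 0 < t) (ht1 : t ≤ 1) :
    t ^ 2 / 78 ≤ amucModulus (normSeminorm ℝ SX) t := by
  refine le_trans ?_ (amucModulus_SX_ge ht)
  rw [le_sub_iff_add_le]
  apply Real.le_sqrt_of_sq_le
  have ha : t ^ 2 ≤ 1 := pow_le_one₀ ht.le ht1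
  have ha0 : 0 ≤ t ^ 2 := sq_nonneg t
  nlinarith

/-! ### sanity: the usual epsilon-delta forms of AUC and AMUC -/

section sanity

variable {X : Type*} [NormedAddCommGroup X] [NormedSpace ℝ X]

theorem isAUC_iff (hX : ¬ FiniteDimensional ℝ X) {N : Seminorm ℝ X} (hN : IsEquivalentNorm N) :
    IsAUC N ↔ ∀ t : ℝ, 0 < t → ∃ δ : ℝ, 0 < δ ∧ ∀ x, N x = 1 →
      ∃ F ∈ cof X, ∀ y ∈ F, N y = 1 → 1 + δ ≤ N (x + t • y) := by
  have htop : (⊤ : Submodule ℝ X) ∈ cof X := by
    refine ⟨isClosed_univ, ?_⟩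
    infer_instance
  have hne : ∀ F ∈ cof X, Nonempty {y : X // y ∈ F ∧ N y = 1} := by
    intro F hF
    obtain ⟨y, hyF, hy⟩ := exists_norm_one_mem hX N hN hF
    exact ⟨⟨y, hyF, hy⟩⟩
  have hlow : ∀ (t : ℝ) (x : X) (F : cof X), BddBelow (Set.range
      fun y : {y : X // y ∈ F.1 ∧ N y = 1} => (N (x + t • y.1) - 1)) := by
    intro t x F
    refine ⟨-1, ?_⟩
    rintro _ ⟨y, rfl⟩
    have := apply_nonneg N (x + t • y.1)
    simp only
    linarith
  have hup : ∀ (t : ℝ), 0 < t → ∀ (x : X), N x = 1 → BddAbove (Set.range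
      fun F : cof X => ⨅ y : {y : X // y ∈ F.1 ∧ N y = 1}, (N (x + t • y.1) - 1)) := by
    intro t ht x hx
    refine ⟨t, ?_⟩
    rintro _ ⟨F, rfl⟩
    obtain ⟨y, hyF, hy⟩ := exists_norm_one_mem hX N hN F.2
    refine (ciInf_le (hlow t x F) ⟨y, hyF, hy⟩).trans ?_
    have h1 : N (x + t • y) ≤ 1 + t := by
      refine (map_add_le_add N _ _).trans ?_
      rw [hx, map_smul_eq_mul, hy, Real.norm_eq_abs, abs_of_pos ht, mul_one]
    simp only
    linarith
  have hout : ∀ (t : ℝ), 0 < t → BddBelow (Set.range fun x : {x : X // N x = 1} =>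
      ⨆ F : cof X, ⨅ y : {y : X // y ∈ F.1 ∧ N y = 1}, (N (x.1 + t • y.1) - 1)) := by
    intro t ht
    refine ⟨-1, ?_⟩
    rintro _ ⟨⟨x, hx⟩, rfl⟩
    have := hne ⊤ htop
    refine le_trans ?_ (le_ciSup (hup t ht x hx) ⟨⊤, htop⟩)
    refine le_ciInf fun y => ?_
    have := apply_nonneg N (x + t • y.1)
    linarith
  constructor
  · intro h t ht
    refine ⟨aucModulus N t / 2, half_pos (h t ht), fun x hx => ?_⟩
    have h1 : aucModulus N t ≤
        ⨆ F : cof X, ⨅ y : {y : X // y ∈ F.1 ∧ N y = 1}, (N (x + t • y.1) - 1) :=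
      ciInf_le (hout t ht) ⟨x, hx⟩
    have : Nonempty (cof X) := ⟨⟨⊤, htop⟩⟩
    obtain ⟨F, hF⟩ := exists_lt_of_lt_ciSup (lt_of_lt_of_le (half_lt_self (h t ht)) h1)
    refine ⟨F.1, F.2, fun y hy hy1 => ?_⟩
    have := lt_of_lt_of_le hF (ciInf_le (hlow t x F) ⟨y, hy, hy1⟩)
    simp only at this
    linarith
  · intro h t ht
    obtain ⟨δ, hδ, hx⟩ := h t ht
    refine lt_of_lt_of_le hδ ?_
    obtain ⟨x₀, -, hx₀⟩ := exists_norm_one_mem hX N hN htop
    have : Nonempty {x : X // N x = 1} := ⟨⟨x₀, hx₀⟩⟩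
    refine le_ciInf fun x => ?_
    obtain ⟨F, hF, hFy⟩ := hx x.1 x.2
    refine le_trans ?_ (le_ciSup (hup t ht x.1 x.2) ⟨F, hF⟩)
    have := hne F hF
    refine le_ciInf fun y => ?_
    have := hFy y.1 y.2.1 y.2.2
    linarith

end sanity

end Vale.Agent.P069
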