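import Vale.Agent.Lib.P069.Renorm

/-!
# P069: the key midpoint inequality
-/

open scoped ENNReal
open Filter Topology

namespace Vale.Agent.P069

/-- Finite sets of nodes closed under passing to the parent, containing the root. -/
def TC (O : Finset (List ℕ)) : Prop := [] ∈ O ∧ ∀ m l, m :: l ∈ O → l ∈ O

/-- Restriction to the coordinates in `O`. -/
noncomputable def res (O : Finset (List ℕ)) : HH →ₗ[ℝ] HH where
  toFun f := ∑ t ∈ O, lp.single 2 t (f t)
  map_add' f g := by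
    rw [← Finset.sum_add_distrib]
    refine Finset.sum_congr rfl fun t _ => ?_
    rw [lp.coeFn_add, Pi.add_apply, lp.single_add]
  map_smul' c f := by
    rw [RingHom.id_apply, Finset.smul_sum]
    refine Finset.sum_congr rfl fun t _ => ?_
    rw [lp.coeFn_smul, Pi.smul_apply, lp.single_smul]

theorem res_def (O : Finset (List ℕ)) (f : HH) : res O f = ∑ t ∈ O, lp.single 2 t (f t) := rfl

theorem res_apply (O : Finset (List ℕ)) (f : HH) (t : List ℕ) :
    res O f t = if t ∈ O then f t else 0 := by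
  rw [res_def]
  simp only [lp.coeFn_sum, Finset.sum_apply, lp.coeFn_single, Finset.sum_pi_single]

theorem norm_sq_res (O : Finset (List ℕ)) (f : HH) :
    ‖f‖ ^ 2 = ‖res O f‖ ^ 2 + ‖f - res O f‖ ^ 2 := by
  have h2 : (0 : ℝ) < (2 : ℝ≥0∞).toReal := by norm_num
  have h := lp.norm_sub_norm_compl_sub_single h2 f O
  have h' := lp.norm_sum_single h2 (fun n => f n) O
  rw [← h'] at h
  have h3 : (2 : ℝ≥0∞).toReal = 2 := by norm_num
  rw [h3] at h
  simp only [Real.rpow_two] at h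
  rw [res_def]
  linarith

theorem inner_res_left (O : Finset (List ℕ)) (f g : HH) :
    inner ℝ (res O f) g = ∑ t ∈ O, f t * g t := by
  rw [res_def, sum_inner]
  refine Finset.sum_congr rfl fun t _ => ?_
  rw [lp.inner_single_left]
  simp [mul_comm]

theorem inner_res_comm (O : Finset (List ℕ)) (f g : HH) :
    inner ℝ (res O f) g = inner ℝ f (res O g) := by
  rw [inner_res_left, real_inner_comm, inner_res_left]
  exact Finset.sum_congr rfl fun t _ => mul_comm _ _

theorem norm_sub_res_le (O : Finset (List ℕ)) (f : HH) : ‖f - res O f‖ ≤ ‖f‖ := by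
  have h := norm_sq_res O f
  have : ‖f - res O f‖ ^ 2 ≤ ‖f‖ ^ 2 := by nlinarith [sq_nonneg ‖res O f‖]
  exact le_of_sq_le_sq this (norm_nonneg _)

theorem inner_bvec_nil (n : ℕ) (v : HH) : inner ℝ v (bvec n []) = v [] := by
  rw [bvec, lp.inner_single_right]
  simp

theorem inner_bvec_cons (n : ℕ) (v : HH) (m : ℕ) (l : List ℕ) :
    inner ℝ v (bvec n (m :: l)) =
      inner ℝ v (bvec n l) + (if l.length < n then v (m :: l) else 0) := by
  rw [bvec, inner_add_right]
  congr 1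
  split_ifs
  · rw [lp.inner_single_right]; simp
  · simp

/-- The largest tail of `s` that belongs to `O`. -/
def ret (O : Finset (List ℕ)) : List ℕ → List ℕ
  | [] => []
  | (m :: l) => if m :: l ∈ O then m :: l else ret O l

theorem ret_mem {O : Finset (List ℕ)} (hO : TC O) (s : List ℕ) : ret O s ∈ O := by
  induction s with
  | nil => exact hO.1
  | cons m l ih =>
    rw [ret]
    split_ifs with h
    · exact h
    · exact ih

theorem ret_of_mem {O : Finset (List ℕ)} {s : List ℕ} (hs : s ∈ O) : ret O s = s := by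
  cases s with
  | nil => rfl
  | cons m l => rw [ret, if_pos hs]

theorem ret_cons_of_not_mem {O : Finset (List ℕ)} {m : ℕ} {l : List ℕ} (h : m :: l ∉ O) :
    ret O (m :: l) = ret O l := by
  rw [ret, if_neg h]

theorem res_bvec {O : Finset (List ℕ)} (hO : TC O) (n : ℕ) (s : List ℕ) :
    res O (bvec n s) = bvec n (ret O s) := by
  have h1 : ∀ t ∈ O, res O (lp.single 2 t (1 : ℝ)) = lp.single 2 t 1 := by
    intro t ht
    ext u
    rw [res_apply]
    by_cases hu : u = t
    · subst hu; rw [if_pos ht]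
    · simp [lp.single_apply, hu]
  have h2 : ∀ t ∉ O, res O (lp.single 2 t (1 : ℝ)) = 0 := by
    intro t ht
    ext u
    rw [res_apply]
    by_cases hu : u = t
    · subst hu; rw [if_neg ht]; rfl
    · simp [lp.single_apply, hu]
  induction s with
  | nil => rw [ret, bvec, h1 _ hO.1]
  | cons m l ih =>
    by_cases hm : m :: l ∈ O
    · have hl : l ∈ O := hO.2 m l hm
      rw [ret_of_mem hm, bvec, map_add, ih, ret_of_mem hl]
      congr 1
      split_ifs
      · exact h1 _ hm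
      · exact map_zero _
    · rw [ret_cons_of_not_mem hm, ← ih, bvec, map_add]
      split_ifs
      · rw [h2 _ hm, add_zero]
      · rw [map_zero, add_zero]

theorem res_U {O : Finset (List ℕ)} (hO : TC O) (n : ℕ) (μ : List ℕ →₀ ℝ) :
    res O (U (bvec n) μ) = U (bvec n) (μ.mapDomain (ret O)) := by
  induction μ using Finsupp.induction_linear with
  | zero => simp
  | add f g hf hg => rw [map_add, map_add, Finsupp.mapDomain_add, map_add, hf, hg]
  | single a b =>
    rw [Finsupp.mapDomain_single, U, Finsupp.linearCombination_single,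
      Finsupp.linearCombination_single, map_smul, res_bvec hO]

theorem inner_U (n : ℕ) (w : HH) (μ : List ℕ →₀ ℝ) {s : Finset (List ℕ)} (hs : μ.support ⊆ s) :
    inner ℝ w (U (bvec n) μ) = ∑ u ∈ s, μ u * inner ℝ w (bvec n u) := by
  rw [U_apply, Finsupp.sum_of_support_subset _ hs _ (by simp), inner_sum]
  exact Finset.sum_congr rfl fun u _ => by rw [real_inner_smul_right]

/-- Scalar inequality used pointwise. -/
theorem scalar_ineq (σ a c ω : ℝ) (hσ : σ = 1 ∨ σ = -1) (hω : |ω| ≤ 2) :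
    a * ω ≤ (a + c) * (σ * max (σ * ω) 0) + 4 * (((|a| - σ * a) + (|c| - σ * c)) / 2) := by
  have h1 := abs_le.mp hω
  rcases hσ with rfl | rfl
  · simp only [one_mul]
    rcases le_total 0 ω with hw | hw
    · rw [max_eq_left hw]
      rcases abs_cases a with ⟨ha, ha'⟩ | ⟨ha, ha'⟩ <;>
      rcases abs_cases c with ⟨hc, hc'⟩ | ⟨hc, hc'⟩ <;> rw [ha, hc] <;> nlinarith
    · rw [max_eq_right hw]
      rcases abs_cases a with ⟨ha, ha'⟩ | ⟨ha, ha'⟩ <;>
      rcases abs_cases c with ⟨hc, hc'⟩ | ⟨hc, hc'⟩ <;> rw [ha, hc] <;> nlinarith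
  · simp only [neg_mul, one_mul]
    rcases le_total 0 ω with hw | hw
    · rw [max_eq_right (by linarith)]
      rcases abs_cases a with ⟨ha, ha'⟩ | ⟨ha, ha'⟩ <;>
      rcases abs_cases c with ⟨hc, hc'⟩ | ⟨hc, hc'⟩ <;> rw [ha, hc] <;> nlinarith
    · rw [max_eq_left (by linarith)]
      rcases abs_cases a with ⟨ha, ha'⟩ | ⟨ha, ha'⟩ <;>
      rcases abs_cases c with ⟨hc, hc'⟩ | ⟨hc, hc'⟩ <;> rw [ha, hc] <;> nlinarith


/-- The truncated potential. -/
noncomputable def potF (O : Finset (List ℕ)) (σ W : List ℕ → ℝ) (s : List ℕ) : ℝ :=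
  σ (ret O s) * max (σ (ret O s) * W s) 0

/-- Its increments along the tree. -/
noncomputable def incF (O : Finset (List ℕ)) (σ W : List ℕ → ℝ) : List ℕ → ℝ
  | [] => 0
  | (m :: l) => potF O σ W (m :: l) - potF O σ W l

theorem abs_max_sub_le (σ a b : ℝ) (hσ : σ = 1 ∨ σ = -1) :
    |σ * max (σ * a) 0 - σ * max (σ * b) 0| ≤ |a - b| := by
  have h := abs_max_sub_max_le_abs (σ * a) (σ * b) 0
  rw [← mul_sub, abs_mul]
  rw [← mul_sub, abs_mul] at h
  have h1 : |σ| = 1 := by rcases hσ with rfl | rfl <;> simp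
  rw [h1, one_mul] at h ⊢
  exact h

theorem key_aux (n : ℕ) {O : Finset (List ℕ)} (hO : TC O) (w : HH) (hw : res O w = 0)
    (σ : List ℕ → ℝ) (hσ : ∀ s, σ s = 1 ∨ σ s = -1) :
    ∃ f : HH, res O f = 0 ∧ ‖f‖ ≤ ‖w‖ ∧
      ∀ s, inner ℝ f (bvec n s) = potF O σ (fun u => inner ℝ w (bvec n u)) s := by
  set W : List ℕ → ℝ := fun u => inner ℝ w (bvec n u) with hW
  have hWO : ∀ s ∈ O, W s = 0 := by
    intro s hs
    have h1 : bvec n s = res O (bvec n s) := by rw [res_bvec hO, ret_of_mem hs]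
    simp only [hW]
    rw [h1, ← inner_res_comm, hw, inner_zero_left]
  have hFO : ∀ s ∈ O, potF O σ W s = 0 := by
    intro s hs
    simp [potF, hWO s hs]
  have hlong : ∀ m l, m :: l ∉ O → ¬ l.length < n → potF O σ W (m :: l) = potF O σ W l := by
    intro m l hm hl
    have h1 : W (m :: l) = W l := by
      simp only [hW]
      rw [inner_bvec_cons, if_neg hl, add_zero]
    rw [potF, potF, ret_cons_of_not_mem hm, h1]
  have hinc : ∀ t, ‖incF O σ W t‖ ≤ ‖w t‖ := by
    intro t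
    cases t with
    | nil => simp [incF]
    | cons m l =>
      rw [incF]
      by_cases hm : m :: l ∈ O
      · rw [hFO _ hm, hFO _ (hO.2 m l hm)]; simp
      · by_cases hl : l.length < n
        · have h1 : W (m :: l) - W l = w (m :: l) := by
            simp only [hW]
            rw [inner_bvec_cons, if_pos hl]
            ring
          rw [potF, potF, ret_cons_of_not_mem hm, Real.norm_eq_abs, Real.norm_eq_abs, ← h1]
          exact abs_max_sub_le _ _ _ (hσ _)
        · rw [hlong m l hm hl]; simp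
  have hmem : Memℓp (incF O σ W) 2 := (lp.memℓp w).mono' hinc
  let f : HH := ⟨incF O σ W, hmem⟩
  have hf : ∀ t, f t = incF O σ W t := fun t => rfl
  refine ⟨f, ?_, lp.norm_mono (by norm_num) hinc, ?_⟩
  · ext t
    rw [res_apply]
    split_ifs with ht
    · rw [hf]
      cases t with
      | nil => rfl
      | cons m l =>
        rw [incF, hFO _ ht, hFO _ (hO.2 m l ht)]; simp
    · rfl
  · intro s
    induction s with
    | nil =>
      rw [inner_bvec_nil, hf, hFO _ hO.1]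
      rfl
    | cons m l ih =>
      rw [inner_bvec_cons, ih]
      by_cases hl : l.length < n
      · rw [if_pos hl, hf, incF]; ring
      · rw [if_neg hl, add_zero]
        by_cases hm : m :: l ∈ O
        · rw [hFO _ hm, hFO _ (hO.2 m l hm)]
        · rw [hlong m l hm hl]

theorem final_arith (G₁ G₂ L₁ L₂ B P N Y q g₁ g₂ r₁ r₂ : ℝ) (hB : 0 ≤ B) (hP : 0 ≤ P) (hY0 : 0 ≤ Y)
    (hA : (L₁ + L₂) / 2 = P + B) (hY : Y ≤ 2 * G₁ + G₂ + 4 * B)
    (hX : N ≤ q + P ^ 2) (hq : q ≤ (r₁ + r₂) / 2) (h1 : g₁ = r₁ + G₁ ^ 2)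
    (h2 : g₂ = r₂ + G₂ ^ 2) :
    N + Y ^ 2 / 26 ≤ (g₁ + L₁ ^ 2 + (g₂ + L₂ ^ 2)) / 2 := by
  have e1 : Y ^ 2 ≤ (2 * G₁ + G₂ + 4 * B) ^ 2 := pow_le_pow_left₀ hY0 hY 2
  have e2 : (2 * G₁ + G₂ + 4 * B) ^ 2 ≤ 26 * (G₁ ^ 2 / 2 + G₂ ^ 2 / 2 + B ^ 2) := by
    nlinarith [sq_nonneg (G₁ - 2 * G₂), sq_nonneg (2 * G₁ - B), sq_nonneg (4 * G₂ - B),
      sq_nonneg (G₂ - B), sq_nonneg (G₁ - B), sq_nonneg (4 * G₂ - 2 * B),
      sq_nonneg (B - 2 * G₂), sq_nonneg (G₁ - 2 * B), sq_nonneg (2 * B - 4 * G₂)]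
  have e3 : (P + B) ^ 2 ≤ (L₁ ^ 2 + L₂ ^ 2) / 2 := by
    rw [← hA]
    nlinarith [sq_nonneg (L₁ - L₂)]
  have e4 : P ^ 2 + B ^ 2 ≤ (P + B) ^ 2 := by nlinarith
  linarith

theorem key (n : ℕ) {O : Finset (List ℕ)} (hO : TC O) (x y : HH) (hx : res O x = x)
    (hy : res O y = 0) (μ ν : List ℕ →₀ ℝ) :
    gn (bvec n) x ^ 2 + gn (bvec n) y ^ 2 / 26 ≤
      (‖x + y - U (bvec n) μ‖ ^ 2 + l1 μ ^ 2 + (‖x - y - U (bvec n) ν‖ ^ 2 + l1 ν ^ 2)) / 2 := by
  set g₁ := x + y - U (bvec n) μ with hg₁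
  set g₂ := x - y - U (bvec n) ν with hg₂
  set κ : List ℕ →₀ ℝ := (1 / 2 : ℝ) • (μ + ν) with hκ
  set p : List ℕ →₀ ℝ := κ.mapDomain (ret O) with hp
  -- signs
  let σ : List ℕ → ℝ := fun t => if 0 ≤ p t then 1 else -1
  have hσ : ∀ t, σ t = 1 ∨ σ t = -1 := fun t => by
    simp only [σ]; split_ifs <;> simp
  have hσp : ∀ t, σ t * p t = |p t| := fun t => by
    simp only [σ]
    split_ifs with h
    · rw [one_mul, abs_of_nonneg h]
    · rw [abs_of_neg (not_le.mp h)]; ring
  have hσle : ∀ t (a : ℝ), σ t * a ≤ |a| := fun t a => by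
    rcases hσ t with h | h <;> rw [h]
    · rw [one_mul]; exact le_abs_self a
    · rw [neg_one_mul]; exact neg_le_abs a
  classical
  set s : Finset (List ℕ) := μ.support ∪ ν.support with hs
  have hμs : μ.support ⊆ s := Finset.subset_union_left
  have hνs : ν.support ⊆ s := Finset.subset_union_right
  have hκs : κ.support ⊆ s := Finsupp.support_smul.trans Finsupp.support_add
  have hl1p : l1 p = ∑ u ∈ s, σ (ret O u) * ((μ u + ν u) / 2) := by
    have h1 : l1 p = p.sum fun t a => σ t * a := by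
      unfold l1 Finsupp.sum
      exact Finset.sum_congr rfl fun t _ => (hσp t).symm
    rw [h1, hp, Finsupp.sum_mapDomain_index (by simp) (by intros; ring),
      Finsupp.sum_of_support_subset _ hκs _ (by simp)]
    refine Finset.sum_congr rfl fun u _ => ?_
    rw [hκ, Finsupp.smul_apply, Finsupp.add_apply, smul_eq_mul]
    ring
  set B : ℝ := ∑ u ∈ s, ((|μ u| - σ (ret O u) * μ u) + (|ν u| - σ (ret O u) * ν u)) / 2 with hB
  have hB0 : 0 ≤ B := Finset.sum_nonneg fun u _ => by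
    have h1 := hσle (ret O u) (μ u)
    have h2 := hσle (ret O u) (ν u)
    linarith
  have hA : (l1 μ + l1 ν) / 2 = l1 p + B := by
    rw [l1_eq μ hμs, l1_eq ν hνs, hl1p, hB, ← Finset.sum_add_distrib, ← Finset.sum_add_distrib,
      Finset.sum_div]
    refine Finset.sum_congr rfl fun u _ => ?_
    ring
  -- the bound for `x`
  have hXle : gn (bvec n) x ^ 2 ≤ ‖res O ((1 / 2 : ℝ) • (g₁ + g₂))‖ ^ 2 + l1 p ^ 2 := by
    refine (gn_sq_le (bvec n) x p).trans_eq ?_
    congr 3
    rw [hp, ← res_U hO]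
    conv_lhs => rw [← hx]
    rw [← map_sub]
    congr 1
    rw [hκ, map_smul, map_add, hg₁, hg₂]
    module
  have hq : ‖res O ((1 / 2 : ℝ) • (g₁ + g₂))‖ ^ 2 ≤ (‖res O g₁‖ ^ 2 + ‖res O g₂‖ ^ 2) / 2 := by
    rw [map_smul, map_add, norm_smul, mul_pow]
    have h1 : ‖res O g₁ + res O g₂‖ ^ 2 + ‖res O g₁ - res O g₂‖ ^ 2 =
        2 * (‖res O g₁‖ ^ 2 + ‖res O g₂‖ ^ 2) := by
      have := parallelogram_law_with_norm ℝ (res O g₁) (res O g₂)
      nlinarith
    have h2 : ‖(1 / 2 : ℝ)‖ = 1 / 2 := by norm_num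
    rw [h2]
    nlinarith [sq_nonneg ‖res O g₁ - res O g₂‖]
  -- duality
  obtain ⟨v, hv1, hv2⟩ := exists_dual n y
  have hvb : ∀ u, |inner ℝ v (bvec n u)| ≤ 1 := fun u => (hv2 _).trans (gn_b_le_one _ _)
  have hvn : ‖v‖ ≤ 1 := by
    have h1 := (le_abs_self _).trans ((hv2 v).trans (gn_le_norm (bvec n) v))
    rw [real_inner_self_eq_norm_sq] at h1
    by_contra hc
    push Not at hc
    nlinarith
  set w : HH := v - res O v with hw
  have hresres : ∀ f : HH, res O (res O f) = res O f := by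
    intro f
    ext t
    rw [res_apply, res_apply]
    split_ifs <;> rfl
  have hresw : res O w = 0 := by rw [hw, map_sub, hresres, sub_self]
  have hwn : ‖w‖ ≤ 1 := (norm_sub_res_le O v).trans hvn
  have hwperp : ∀ f : HH, inner ℝ w (res O f) = 0 := by
    intro f
    rw [← inner_res_comm, hresw, inner_zero_left]
  have hW2 : ∀ u, |inner ℝ w (bvec n u)| ≤ 2 := by
    intro u
    have h1 : inner ℝ w (bvec n u) = inner ℝ v (bvec n u) - inner ℝ v (bvec n (ret O u)) := by
      rw [hw, inner_sub_left, inner_res_comm, res_bvec hO]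
    rw [h1]
    have h2 := abs_sub (inner ℝ v (bvec n u)) (inner ℝ v (bvec n (ret O u)))
    linarith [hvb u, hvb (ret O u)]
  obtain ⟨f, hf1, hf2, hf3⟩ := key_aux n hO w hresw σ hσ
  have hfperp : ∀ g : HH, inner ℝ f (res O g) = 0 := by
    intro g
    rw [← inner_res_comm, hf1, inner_zero_left]
  have hfn : ‖f‖ ≤ 1 := hf2.trans hwn
  have hCS : ∀ (a : HH) (ha : ∀ g : HH, inner ℝ a (res O g) = 0) (han : ‖a‖ ≤ 1) (g : HH),
      |inner ℝ a g| ≤ ‖g - res O g‖ := by
    intro a ha han g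
    have h1 : inner ℝ a g = inner ℝ a (g - res O g) := by rw [inner_sub_right, ha, sub_zero]
    rw [h1]
    exact (abs_real_inner_le_norm _ _).trans (mul_le_of_le_one_left (norm_nonneg _) han)
  -- the bound for `y`
  have hYle : gn (bvec n) y ≤ 2 * ‖g₁ - res O g₁‖ + ‖g₂ - res O g₂‖ + 4 * B := by
    have h1 : gn (bvec n) y = inner ℝ w g₁ + inner ℝ w (U (bvec n) μ) := by
      rw [← inner_add_right, hg₁, sub_add_cancel, inner_add_right, ← hx, hwperp, zero_add, hw,
        inner_sub_left, inner_res_comm, hy, inner_zero_right, sub_zero, hv1]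
    have h2 : inner ℝ w (U (bvec n) μ) ≤ inner ℝ f (U (bvec n) μ + U (bvec n) ν) + 4 * B := by
      rw [inner_U n w μ hμs, inner_add_right, inner_U n f μ hμs, inner_U n f ν hνs, hB,
        Finset.mul_sum, ← Finset.sum_add_distrib, ← Finset.sum_add_distrib]
      refine Finset.sum_le_sum fun u _ => ?_
      rw [hf3 u, potF, ← add_mul]
      exact scalar_ineq _ _ _ _ (hσ _) (hW2 u)
    have h3 : inner ℝ f (U (bvec n) μ + U (bvec n) ν) = - inner ℝ f g₁ - inner ℝ f g₂ := by
      have e1 : U (bvec n) μ + U (bvec n) ν = res O ((2 : ℝ) • x) - g₁ - g₂ := by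
        rw [map_smul, hx, hg₁, hg₂]
        module
      rw [e1, inner_sub_right, inner_sub_right, hfperp]
      ring
    have h4 := (abs_le.mp (hCS w hwperp hwn g₁)).2
    have h5 := (abs_le.mp (hCS f hfperp hfn g₁)).1
    have h6 := (abs_le.mp (hCS f hfperp hfn g₂)).1
    linarith
  exact final_arith _ _ _ _ B (l1 p) _ _ _ _ _ _ _ hB0
    (l1_nonneg _) (gn_nonneg _ _) hA hYle hXle hq (norm_sq_res O g₁) (norm_sq_res O g₂)

/-- The midpoint inequality for the new norm. -/
theorem key' (n : ℕ) {O : Finset (List ℕ)} (hO : TC O) (x y : HH) (hx : res O x = x)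
    (hy : res O y = 0) :
    gn (bvec n) x ^ 2 + gn (bvec n) y ^ 2 / 26 ≤
      (gn (bvec n) (x + y) ^ 2 + gn (bvec n) (x - y) ^ 2) / 2 := by
  have hc : ∀ μ ν, gn (bvec n) x ^ 2 + gn (bvec n) y ^ 2 / 26 ≤
      (cost (bvec n) (x + y) μ ^ 2 + cost (bvec n) (x - y) ν ^ 2) / 2 := by
    intro μ ν
    have := key n hO x y hx hy μ ν
    unfold cost
    rw [Real.sq_sqrt (by positivity), Real.sq_sqrt (by positivity)]
    exact this
  obtain ⟨a, -, ha, ha'⟩ := exists_seq_tendsto_sInf (Set.range_nonempty (cost (bvec n) (x + y)))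
    (bddBelow_cost (bvec n) (x + y))
  obtain ⟨b, -, hb, hb'⟩ := exists_seq_tendsto_sInf (Set.range_nonempty (cost (bvec n) (x - y)))
    (bddBelow_cost (bvec n) (x - y))
  have hlim : Tendsto (fun k => (a k ^ 2 + b k ^ 2) / 2) atTop
      (𝓝 ((gn (bvec n) (x + y) ^ 2 + gn (bvec n) (x - y) ^ 2) / 2)) :=
    ((ha.pow 2).add (hb.pow 2)).div_const 2
  refine ge_of_tendsto hlim (Eventually.of_forall fun k => ?_)
  obtain ⟨μ, hμ⟩ := ha' k
  obtain ⟨ν, hν⟩ := hb' k
  rw [← hμ, ← hν]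
  exact hc μ ν

end Vale.Agent.P069
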