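import Vale.Agent.Lib.P069.Sum

/-!
# P069: the space has no equivalent AUC norm
-/

open scoped ENNReal
open Filter Topology

namespace Vale.Agent.P069

/-- The unit vector at the node `t` of the `n`-th tree. -/
noncomputable def ev (n : ℕ) (t : List ℕ) : SX := emb n (lp.single 2 t 1)

/-- The branch vector at the node `s` of the `n`-th tree. -/
noncomputable def uv (n : ℕ) (s : List ℕ) : SX := emb n (bvec n s)

theorem uv_cons {n m : ℕ} {l : List ℕ} (h : l.length < n) :
    uv n (m :: l) = uv n l + ev n (m :: l) := by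
  rw [uv, uv, ev, ← emb_add, bvec, if_pos h]

theorem norm_uv_le (n : ℕ) (s : List ℕ) : ‖uv n s‖ ≤ 1 := by
  rw [uv, norm_emb]; exact gn_b_le_one _ _

theorem norm_ev_ge (n : ℕ) (t : List ℕ) : 1 / 2 ≤ ‖ev n t‖ := by
  rw [ev, norm_emb]
  have h := abs_apply_le_gn n (lp.single 2 t (1 : ℝ)) t
  simp only [lp.single_apply, Pi.single_eq_same, abs_one] at h
  linarith

theorem norm_uv_nil_ge (n : ℕ) : 1 / 2 ≤ ‖uv n []‖ := norm_ev_ge n []

/-- The children of a node are weakly null. -/
theorem tendsto_ev (n : ℕ) (l : List ℕ) (f : SX →L[ℝ] ℝ) :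
    Tendsto (fun m : ℕ => f (ev n (m :: l))) atTop (𝓝 0) := by
  let g : StrongDual ℝ HH := f.comp (embL n)
  let v : HH := (InnerProductSpace.toDual ℝ HH).symm g
  have h1 : ∀ m, f (ev n (m :: l)) = v (m :: l) := by
    intro m
    have : inner ℝ v (lp.single 2 (m :: l) (1 : ℝ)) = g (lp.single 2 (m :: l) (1 : ℝ)) :=
      InnerProductSpace.toDual_symm_apply
    rw [lp.inner_single_right] at this
    simp only [RCLike.inner_apply, conj_trivial, one_mul] at this
    rw [this]
    rfl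
  simp only [h1]
  have h2 : Summable fun t => ‖v t‖ ^ (2 : ℝ≥0∞).toReal := (lp.memℓp v).summable (by norm_num)
  have h3 : (2 : ℝ≥0∞).toReal = 2 := by norm_num
  rw [h3] at h2
  simp only [Real.rpow_two] at h2
  have hinj : Function.Injective fun m : ℕ => m :: l := fun a b h => by simpa using h
  have h4 := (h2.comp_injective hinj).tendsto_atTop_zero
  have h5 : Tendsto (fun m : ℕ => ‖v (m :: l)‖) atTop (𝓝 0) := by
    have := h4.sqrt
    simp only [Function.comp_def, Real.sqrt_sq (norm_nonneg _), Real.sqrt_zero] at this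
    exact this
  exact tendsto_zero_iff_norm_tendsto_zero.mpr h5

/-- The children of a node come close to every closed subspace of finite codimension. -/
theorem exists_close {F : Submodule ℝ SX} (hF : F ∈ cof SX) (n : ℕ) (l : List ℕ) {ε : ℝ}
    (hε : 0 < ε) : ∃ m : ℕ, ∃ y ∈ F, ‖ev n (m :: l) - y‖ < ε := by
  have hcl : IsClosed (F : Set SX) := hF.1
  have hfin : FiniteDimensional ℝ (SX ⧸ F) := hF.2
  let q : SX →L[ℝ] SX ⧸ F := F.mkQL
  let B := Module.finBasis ℝ (SX ⧸ F)
  have hq : Tendsto (fun m : ℕ => q (ev n (m :: l))) atTop (𝓝 0) := by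
    have h1 : ∀ m : ℕ, q (ev n (m :: l)) =
        ∑ i, (LinearMap.toContinuousLinearMap (B.coord i)) (q (ev n (m :: l))) • B i := by
      intro m
      exact (B.sum_repr _).symm
    have h2 : Tendsto (fun m : ℕ =>
        ∑ i, (LinearMap.toContinuousLinearMap (B.coord i)) (q (ev n (m :: l))) • B i) atTop
        (𝓝 (∑ i, (0 : ℝ) • B i)) := by
      refine tendsto_finsetSum _ fun i _ => ?_
      refine Tendsto.smul_const ?_ (B i)
      exact tendsto_ev n l ((LinearMap.toContinuousLinearMap (B.coord i)).comp q)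
    simp only [zero_smul, Finset.sum_const_zero] at h2
    exact h2.congr fun m => (h1 m).symm
  obtain ⟨m, hm⟩ := ((Metric.tendsto_nhds.mp hq) ε hε).exists
  rw [dist_zero_right] at hm
  refine ⟨m, ?_⟩
  have h3 : ‖(Submodule.Quotient.mk (ev n (m :: l)) : SX ⧸ F)‖ < ε := hm
  obtain ⟨z, hz1, hz2⟩ := Submodule.Quotient.norm_mk_lt (S := F) (Submodule.Quotient.mk (ev n (m :: l)))
    (sub_pos.mpr h3)
  refine ⟨ev n (m :: l) - z, ?_, ?_⟩
  · rw [Submodule.Quotient.eq] at hz1
    have := F.neg_mem hz1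
    rwa [neg_sub] at this
  · rw [sub_sub_cancel]
    linarith

theorem bddBelow_outer {N : Seminorm ℝ SX} (hN : IsEquivalentNorm N) {τ : ℝ} (hτ : 0 < τ) :
    BddBelow (Set.range fun x : {x : SX // N x = 1} => ⨆ F : cof SX,
        ⨅ y : {y : SX // y ∈ F.1 ∧ N y = 1}, (N (x.1 + τ • y.1) - 1)) := by
  refine ⟨-1, ?_⟩
  rintro _ ⟨⟨x, hx⟩, rfl⟩
  simp only
  have hlow : ∀ F : cof SX, ∀ y : {y : SX // y ∈ F.1 ∧ N y = 1}, -1 ≤ N (x + τ • y.1) - 1 := by
    intro F y
    have := apply_nonneg N (x + τ • y.1)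
    linarith
  have hbdd : BddAbove (Set.range fun F : cof SX =>
      ⨅ y : {y : SX // y ∈ F.1 ∧ N y = 1}, (N (x + τ • y.1) - 1)) := by
    refine ⟨τ, ?_⟩
    rintro _ ⟨F, rfl⟩
    obtain ⟨y, hyF, hy⟩ := exists_norm_one_mem not_finiteDimensional_SX N hN F.2
    refine (ciInf_le ⟨-1, ?_⟩ ⟨y, hyF, hy⟩).trans ?_
    · rintro _ ⟨y, rfl⟩
      exact hlow F y
    · have h1 : N (x + τ • y) ≤ 1 + τ := by
        refine (map_add_le_add N _ _).trans ?_
        rw [hx, map_smul_eq_mul, hy, Real.norm_eq_abs, abs_of_pos hτ, mul_one]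
      simp only
      linarith
  refine le_trans ?_ (le_ciSup hbdd ⟨FS 0 ∅, FS_mem_cof 0 ∅⟩)
  have : Nonempty {y : SX // y ∈ FS 0 ∅ ∧ N y = 1} := by
    obtain ⟨y, hyF, hy⟩ := exists_norm_one_mem not_finiteDimensional_SX N hN (FS_mem_cof 0 ∅)
    exact ⟨⟨y, hyF, hy⟩⟩
  exact le_ciInf fun y => hlow ⟨FS 0 ∅, FS_mem_cof 0 ∅⟩ y

theorem not_auc (N : Seminorm ℝ SX) (hN : IsEquivalentNorm N) : ¬ IsAUC N := by
  intro hauc
  obtain ⟨c, C, hc, hcC⟩ := hN
  have hC : 0 < C := by
    have h1 := hcC (uv 0 [])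
    have h2 := norm_uv_nil_ge 0
    by_contra hneg
    push Not at hneg
    nlinarith
  -- the constants
  set τ : ℝ := c / (4 * C) with hτ
  have hτ0 : 0 < τ := by positivity
  set δ := aucModulus N τ with hδ
  have hδ0 : 0 < δ := hauc τ hτ0
  -- one step
  have step1 : ∀ u : SX, 0 < N u → ∃ F ∈ cof SX, ∀ y ∈ F, τ * N u ≤ N y →
      N u * (1 + δ / 2) ≤ N (u + y) := by
    intro u hu
    obtain ⟨x, hx⟩ : ∃ x : SX, x = (N u)⁻¹ • u := ⟨_, rfl⟩
    have hx1 : N x = 1 := by
      rw [hx, map_smul_eq_mul, norm_inv, Real.norm_eq_abs, abs_of_pos hu, inv_mul_cancel₀ hu.ne']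
    have hbelow : BddBelow (Set.range fun x : {x : SX // N x = 1} => ⨆ F : cof SX,
        ⨅ y : {y : SX // y ∈ F.1 ∧ N y = 1}, (N (x.1 + τ • y.1) - 1)) :=
      bddBelow_outer ⟨c, C, hc, hcC⟩ hτ0
    have h1 : δ ≤ ⨆ F : cof SX, ⨅ y : {y : SX // y ∈ F.1 ∧ N y = 1}, (N (x + τ • y.1) - 1) :=
      ciInf_le hbelow ⟨x, hx1⟩
    have : Nonempty (cof SX) := ⟨⟨FS 0 ∅, FS_mem_cof 0 ∅⟩⟩
    obtain ⟨F, hF⟩ := exists_lt_of_lt_ciSup (lt_of_lt_of_le (half_lt_self hδ0) h1)
    refine ⟨F.1, F.2, fun y hy hyN => ?_⟩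
    have hNy : 0 < N y := lt_of_lt_of_le (by positivity) hyN
    have hbelow2 : BddBelow (Set.range fun y : {y : SX // y ∈ F.1 ∧ N y = 1} =>
        (N (x + τ • y.1) - 1)) := by
      refine ⟨-1, ?_⟩
      rintro _ ⟨y, rfl⟩
      have := apply_nonneg N (x + τ • y.1)
      simp only
      linarith
    obtain ⟨z, hz⟩ : ∃ z : SX, z = (N y)⁻¹ • y := ⟨_, rfl⟩
    have hz1 : N z = 1 := by
      rw [hz, map_smul_eq_mul, norm_inv, Real.norm_eq_abs, abs_of_pos hNy,
        inv_mul_cancel₀ hNy.ne']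
    have h2 : δ / 2 < N (x + τ • z) - 1 :=
      lt_of_lt_of_le hF (ciInf_le hbelow2 ⟨z, hz ▸ F.1.smul_mem _ hy, hz1⟩)
    -- convexity
    obtain ⟨r, hr⟩ : ∃ r : ℝ, r = N y / N u := ⟨_, rfl⟩
    have hr1 : τ ≤ r := by rw [hr, le_div_iff₀ hu]; exact hyN
    have hr0 : 0 < r := by rw [hr]; exact div_pos hNy hu
    have h3 : N (x + τ • z) ≤ (1 - τ / r) * 1 + τ / r * N (x + r • z) := by
      have e1 : x + τ • z = (1 - τ / r) • x + (τ / r) • (x + r • z) := by
        rw [smul_add, smul_smul, div_mul_cancel₀ _ hr0.ne', ← add_assoc, ← add_smul,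
          sub_add_cancel, one_smul]
      have e2 : τ / r ≤ 1 := (div_le_one hr0).mpr hr1
      have e3 : 0 ≤ τ / r := by positivity
      calc N (x + τ • z) = N ((1 - τ / r) • x + (τ / r) • (x + r • z)) := by rw [← e1]
        _ ≤ N ((1 - τ / r) • x) + N ((τ / r) • (x + r • z)) := map_add_le_add N _ _
        _ = _ := by
          rw [map_smul_eq_mul, map_smul_eq_mul, hx1, Real.norm_eq_abs, Real.norm_eq_abs,
            abs_of_nonneg (by linarith), abs_of_nonneg e3]
    have h4 : 1 + δ / 2 ≤ N (x + r • z) := by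
      have e2 : τ / r ≤ 1 := (div_le_one hr0).mpr hr1
      have e3 : 0 < τ / r := by positivity
      by_contra hneg
      push Not at hneg
      nlinarith
    have h5 : u + y = N u • (x + r • z) := by
      rw [smul_add, smul_smul, hx, hz, smul_smul, smul_smul, hr]
      rw [mul_inv_cancel₀ hu.ne', one_smul]
      congr 1
      rw [mul_div_cancel₀ _ hu.ne', mul_inv_cancel₀ hNy.ne', one_smul]
    rw [h5, map_smul_eq_mul, Real.norm_eq_abs, abs_of_pos hu]
    exact mul_le_mul_of_nonneg_left h4 hu.le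
  -- growth along branches
  have grow : ∀ n k : ℕ, k ≤ n → ∃ s : List ℕ, s.length = k ∧
      c / 2 + k * (c * δ / 8) ≤ N (uv n s) := by
    intro n k
    induction k with
    | zero =>
      intro _
      refine ⟨[], rfl, ?_⟩
      have := (hcC (uv n [])).1
      have := norm_uv_nil_ge n
      push_cast
      nlinarith
    | succ k ih =>
      intro hk
      obtain ⟨l, hl, hlN⟩ := ih (by omega)
      set u := uv n l with hu
      have hNu : c / 2 ≤ N u := by
        have : 0 ≤ (k : ℝ) * (c * δ / 8) := by positivity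
        linarith
      have hNu0 : 0 < N u := by linarith
      obtain ⟨F, hF, hFy⟩ := step1 u hNu0
      set ε := min (c / 4) (c * δ / 8) / C with hε
      have hε0 : 0 < ε := by positivity
      obtain ⟨m, y, hy, hmy⟩ := exists_close hF n l hε0
      have hd : N (ev n (m :: l) - y) ≤ min (c / 4) (c * δ / 8) := by
        refine (hcC _).2.trans ?_
        have := mul_le_mul_of_nonneg_left hmy.le hC.le
        rw [hε, mul_div_cancel₀ _ hC.ne'] at this
        exact this
      have hd1 := hd.trans (min_le_left _ _)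
      have hd2 := hd.trans (min_le_right _ _)
      have hNe : c / 2 ≤ N (ev n (m :: l)) := by
        have h1 := (hcC (ev n (m :: l))).1
        have h2 := norm_ev_ge n (m :: l)
        nlinarith
      have hNy : c / 4 ≤ N y := by
        have : N (ev n (m :: l)) ≤ N (ev n (m :: l) - y) + N y := by
          calc N (ev n (m :: l)) = N ((ev n (m :: l) - y) + y) := by rw [sub_add_cancel]
            _ ≤ _ := map_add_le_add N _ _
        linarith
      have hNuC : N u ≤ C := by
        have h1 := (hcC u).2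
        have h2 := norm_uv_le n l
        nlinarith
      have hτNu : τ * N u ≤ N y := by
        calc τ * N u ≤ τ * C := mul_le_mul_of_nonneg_left hNuC hτ0.le
          _ = c / 4 := by rw [hτ]; field_simp
          _ ≤ N y := hNy
      have h1 := hFy y hy hτNu
      have h2 : N (u + y) ≤ N (uv n (m :: l)) + N (ev n (m :: l) - y) := by
        have : u + y = uv n (m :: l) - (ev n (m :: l) - y) := by
          rw [uv_cons (by omega), hu]; abel
        rw [this]
        exact map_sub_le_add N _ _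
      refine ⟨m :: l, by simp [hl], ?_⟩
      push_cast
      nlinarith
  -- contradiction
  obtain ⟨n, hn⟩ := exists_nat_gt (C / (c * δ / 8))
  obtain ⟨s, -, hs⟩ := grow n n le_rfl
  have h1 : N (uv n s) ≤ C := by
    have h1 := (hcC (uv n s)).2
    have h2 := norm_uv_le n s
    nlinarith
  rw [div_lt_iff₀ (by positivity)] at hn
  linarith

end Vale.Agent.P069
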