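import Vale.Agent.Lib.P069.Defs

/-!
# P069: reflexivity of Hilbert spaces, of isomorphic copies and of `ℓ²`-sums
-/

open scoped ENNReal
open Filter Topology

namespace Vale.Agent.P069

section basic

variable {E F : Type*} [NormedAddCommGroup E] [NormedSpace ℝ E]
  [NormedAddCommGroup F] [NormedSpace ℝ F]

theorem isReflexive_iff :
    IsReflexive E ↔ ∀ φ : StrongDual ℝ (StrongDual ℝ E), ∃ x : E, ∀ f : StrongDual ℝ E,
      f x = φ f := by
  constructor
  · intro h φ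
    obtain ⟨x, hx⟩ := h φ
    exact ⟨x, fun f => by rw [← hx]; rfl⟩
  · intro h φ
    obtain ⟨x, hx⟩ := h φ
    refine ⟨x, ?_⟩
    ext f
    exact hx f

theorem IsReflexive.congr (e : E ≃L[ℝ] F) (h : IsReflexive E) : IsReflexive F := by
  rw [isReflexive_iff] at h ⊢
  intro φ
  let T : StrongDual ℝ E →L[ℝ] StrongDual ℝ F :=
    (ContinuousLinearMap.compL ℝ F E ℝ).flip (e.symm : F →L[ℝ] E)
  obtain ⟨x, hx⟩ := h (φ.comp T)
  refine ⟨e x, fun f => ?_⟩
  have h1 := hx (f.comp (e : E →L[ℝ] F))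
  have h2 : T (f.comp (e : E →L[ℝ] F)) = f := by
    ext y
    simp [T]
  simp only [ContinuousLinearMap.comp_apply, h2] at h1
  exact h1

theorem isReflexive_hilbert {H : Type*} [NormedAddCommGroup H] [InnerProductSpace ℝ H]
    [CompleteSpace H] : IsReflexive H := by
  rw [isReflexive_iff]
  intro φ
  let J : H ≃ₗᵢ[ℝ] StrongDual ℝ H := InnerProductSpace.toDual ℝ H
  let ψ : StrongDual ℝ H := φ.comp (J.toContinuousLinearEquiv : H →L[ℝ] StrongDual ℝ H)
  refine ⟨J.symm ψ, fun f => ?_⟩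
  have h1 : inner ℝ (J.symm f) (J.symm ψ) = f (J.symm ψ) :=
    InnerProductSpace.toDual_symm_apply
  have h2 : inner ℝ (J.symm ψ) (J.symm f) = ψ (J.symm f) :=
    InnerProductSpace.toDual_symm_apply
  have h3 : φ f = ψ (J.symm f) := by simp [ψ]
  rw [← h1, h3, ← h2, real_inner_comm]

end basic

section sum

variable {E : ℕ → Type*} [∀ n, NormedAddCommGroup (E n)]

/-- partial sum projection. -/
noncomputable def psum (N : ℕ) (z : lp E 2) : lp E 2 :=
  ∑ n ∈ Finset.range N, lp.single 2 n (z n)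

theorem psum_apply (N : ℕ) (z : lp E 2) (k : ℕ) :
    psum N z k = if k < N then z k else 0 := by
  simp only [psum, lp.coeFn_sum, Finset.sum_apply, lp.coeFn_single, Finset.sum_pi_single,
    Finset.mem_range]

theorem norm_sq_psum (N : ℕ) (z : lp E 2) :
    ‖z‖ ^ 2 = ‖psum N z‖ ^ 2 + ‖z - psum N z‖ ^ 2 := by
  have h2 : (0 : ℝ) < (2 : ℝ≥0∞).toReal := by norm_num
  have h := lp.norm_sub_norm_compl_sub_single h2 z (Finset.range N)
  have h' := lp.norm_sum_single h2 (fun n => z n) (Finset.range N)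
  rw [← h'] at h
  have h3 : (2 : ℝ≥0∞).toReal = 2 := by norm_num
  rw [h3] at h
  simp only [Real.rpow_two] at h
  unfold psum
  linarith

theorem tendsto_psum (z : lp E 2) : Tendsto (fun N => psum N z) atTop (𝓝 z) := by
  have h := lp.hasSum_single (p := 2) (by norm_num) z
  exact h.tendsto_sum_nat

theorem psum_psum (N : ℕ) (z : lp E 2) : psum N (psum N z) = psum N z := by
  ext k
  rw [psum_apply, psum_apply]
  split_ifs <;> rfl

theorem psum_add (N : ℕ) (z w : lp E 2) : psum N (z + w) = psum N z + psum N w := by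
  ext k
  simp only [psum_apply, lp.coeFn_add, Pi.add_apply]
  split_ifs <;> simp

theorem psum_sub (N : ℕ) (z w : lp E 2) : psum N (z - w) = psum N z - psum N w := by
  ext k
  simp only [psum_apply, lp.coeFn_sub, Pi.sub_apply]
  split_ifs <;> simp

theorem norm_psum_le (N : ℕ) (z : lp E 2) : ‖psum N z‖ ≤ ‖z‖ := by
  have h := norm_sq_psum N z
  have : ‖psum N z‖ ^ 2 ≤ ‖z‖ ^ 2 := by nlinarith [sq_nonneg ‖z - psum N z‖]
  exact le_of_sq_le_sq this (norm_nonneg _)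

theorem norm_sub_psum_le (N : ℕ) (z : lp E 2) : ‖z - psum N z‖ ≤ ‖z‖ := by
  have h := norm_sq_psum N z
  have : ‖z - psum N z‖ ^ 2 ≤ ‖z‖ ^ 2 := by nlinarith [sq_nonneg ‖psum N z‖]
  exact le_of_sq_le_sq this (norm_nonneg _)

variable [∀ n, NormedSpace ℝ (E n)]

theorem psum_smul (N : ℕ) (c : ℝ) (z : lp E 2) : psum N (c • z) = c • psum N z := by
  ext k
  simp only [psum_apply, lp.coeFn_smul, Pi.smul_apply]
  split_ifs <;> simp

theorem sq_add_sq_le_of_dual (F : StrongDual ℝ (lp E 2)) (N : ℕ) (z w : lp E 2)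
    (hz : ‖z‖ ≤ 1) (hw : ‖w‖ ≤ 1) :
    F (psum N z) ^ 2 + F (w - psum N w) ^ 2 ≤ ‖F‖ ^ 2 := by
  set a := F (psum N z) with ha
  set b := F (w - psum N w) with hb
  let u : lp E 2 := a • psum N z + b • (w - psum N w)
  have h1 : F u = a ^ 2 + b ^ 2 := by
    simp only [u, map_add, map_smul, smul_eq_mul]
    rw [← ha, ← hb]
    ring
  have h2 : psum N u = a • psum N z := by
    simp only [u, psum_add, psum_smul, psum_sub, psum_psum, sub_self, smul_zero, add_zero]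
  have h3 : u - psum N u = b • (w - psum N w) := by
    rw [h2]; simp [u]
  have h4 : ‖u‖ ^ 2 ≤ a ^ 2 + b ^ 2 := by
    rw [norm_sq_psum N u, h3, h2, norm_smul, norm_smul, mul_pow, mul_pow]
    simp only [Real.norm_eq_abs, sq_abs]
    have e1 : ‖psum N z‖ ^ 2 ≤ 1 := by
      have := (norm_psum_le N z).trans hz
      nlinarith [norm_nonneg (psum N z)]
    have e2 : ‖w - psum N w‖ ^ 2 ≤ 1 := by
      have := (norm_sub_psum_le N w).trans hw
      nlinarith [norm_nonneg (w - psum N w)]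
    nlinarith [sq_nonneg a, sq_nonneg b]
  have h5 : a ^ 2 + b ^ 2 ≤ ‖F‖ * ‖u‖ := by
    rw [← h1]
    exact (le_abs_self _).trans (F.le_opNorm u)
  have h6 : (a ^ 2 + b ^ 2) ^ 2 ≤ ‖F‖ ^ 2 * (a ^ 2 + b ^ 2) := by
    calc (a ^ 2 + b ^ 2) ^ 2 ≤ (‖F‖ * ‖u‖) ^ 2 := by
          apply pow_le_pow_left₀ (by positivity) h5
      _ = ‖F‖ ^ 2 * ‖u‖ ^ 2 := by ring
      _ ≤ ‖F‖ ^ 2 * (a ^ 2 + b ^ 2) := by gcongr
  by_cases h0 : a ^ 2 + b ^ 2 = 0
  · rw [h0]; positivity
  · have hpos : 0 < a ^ 2 + b ^ 2 := lt_of_le_of_ne (by positivity) (Ne.symm h0)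
    nlinarith

/-- Every functional on an `ℓ²`-sum is the norm limit of its restrictions. -/
theorem exists_tail_small (F : StrongDual ℝ (lp E 2)) {ε : ℝ} (hε : 0 < ε) :
    ∃ N₀ : ℕ, ∀ N ≥ N₀, ∀ w : lp E 2, |F (w - psum N w)| ≤ ε * ‖w‖ := by
  -- choose `z` almost norming
  by_cases hF : ‖F‖ = 0
  · refine ⟨0, fun N _ w => ?_⟩
    have : F = 0 := norm_eq_zero.mp hF
    simp [this]; positivity
  have hFpos : 0 < ‖F‖ := lt_of_le_of_ne (norm_nonneg _) (Ne.symm hF)
  -- want `F z > r` with `r^2 > ‖F‖^2 - ε^2`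
  obtain ⟨r, hr0, hr1, hr2⟩ : ∃ r, 0 ≤ r ∧ r < ‖F‖ ∧ ‖F‖ ^ 2 - ε ^ 2 ≤ r ^ 2 := by
    by_cases hc : ‖F‖ ≤ ε
    · refine ⟨0, le_rfl, hFpos, ?_⟩
      nlinarith
    · push Not at hc
      refine ⟨Real.sqrt (‖F‖ ^ 2 - ε ^ 2), Real.sqrt_nonneg _, ?_, ?_⟩
      · rw [Real.sqrt_lt' hFpos]
        nlinarith
      · rw [Real.sq_sqrt]
        nlinarith
  obtain ⟨z, hz1, hz2⟩ := F.exists_lt_apply_of_lt_opNorm hr1
  rw [Real.norm_eq_abs] at hz2
  have hlim : Tendsto (fun N => |F (psum N z)|) atTop (𝓝 |F z|) :=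
    ((F.continuous.tendsto z).comp (tendsto_psum z)).abs
  obtain ⟨N₀, hN₀⟩ := (hlim.eventually (lt_mem_nhds hz2)).exists_forall_of_atTop
  refine ⟨N₀, fun N hN w => ?_⟩
  have h1 := hN₀ N hN
  by_cases hw : w = 0
  · subst hw
    have : psum N (0 : lp E 2) = 0 := by
      ext k; simp [psum_apply]
    simp [this]
  have hwpos : 0 < ‖w‖ := norm_pos_iff.mpr hw
  have h2 := sq_add_sq_le_of_dual F N z (‖w‖⁻¹ • w) hz1.le
    (by rw [norm_smul, norm_inv, norm_norm, inv_mul_cancel₀ hwpos.ne'])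
  rw [psum_smul, ← smul_sub, map_smul, smul_eq_mul] at h2
  have h3 : r ^ 2 < F (psum N z) ^ 2 := by
    rw [← sq_abs (F (psum N z))]
    exact pow_lt_pow_left₀ h1 hr0 (by norm_num)
  have h4 : (‖w‖⁻¹ * F (w - psum N w)) ^ 2 ≤ ε ^ 2 := by nlinarith
  have h5 := abs_le_of_sq_le_sq h4 hε.le
  rw [abs_mul, abs_of_pos (inv_pos.mpr hwpos), inv_mul_le_iff₀ hwpos] at h5
  linarith

theorem isReflexive_lp (h : ∀ n, IsReflexive (E n)) : IsReflexive (lp E 2) := by
  rw [isReflexive_iff]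
  intro φ
  let P : ∀ n, lp E 2 →L[ℝ] E n := fun n => lp.evalCLM ℝ E 2 n
  have hP : ∀ n (z : lp E 2), P n z = z n := fun n z => rfl
  let T : ∀ n, StrongDual ℝ (E n) →L[ℝ] StrongDual ℝ (lp E 2) :=
    fun n => (ContinuousLinearMap.compL ℝ (lp E 2) (E n) ℝ).flip (P n)
  have hT : ∀ n (f : StrongDual ℝ (E n)) (z : lp E 2), T n f z = f (z n) := fun n f z => rfl
  have hex : ∀ n, ∃ x : E n, ∀ f : StrongDual ℝ (E n), f x = φ (T n f) := by
    intro n
    obtain ⟨x, hx⟩ := isReflexive_iff.mp (h n) (φ.comp (T n))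
    exact ⟨x, hx⟩
  choose x hx using hex
  -- the sequence `x` is in `ℓ²`
  have hmem : Memℓp x 2 := by
    apply memℓp_gen' (C := ‖φ‖ ^ 2)
    intro s
    have h3 : (2 : ℝ≥0∞).toReal = 2 := by norm_num
    rw [h3]
    simp only [Real.rpow_two]
    have hd : ∀ n, ∃ g : StrongDual ℝ (E n), ‖g‖ ≤ 1 ∧ g (x n) = ‖x n‖ :=
      fun n => exists_dual_vector'' ℝ (x n)
    choose g hg1 hg2 using hd
    let G : StrongDual ℝ (lp E 2) := ∑ n ∈ s, ‖x n‖ • T n (g n)
    set S := ∑ n ∈ s, ‖x n‖ ^ 2 with hS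
    have hS0 : 0 ≤ S := Finset.sum_nonneg fun _ _ => by positivity
    have hφG : φ G = S := by
      simp only [G, map_sum, map_smul, smul_eq_mul, S]
      refine Finset.sum_congr rfl fun n _ => ?_
      rw [← hx n (g n), hg2 n]
      change ‖x n‖ * ‖x n‖ = _
      ring
    have hG : ‖G‖ ≤ Real.sqrt S := by
      refine ContinuousLinearMap.opNorm_le_bound _ (Real.sqrt_nonneg _) fun z => ?_
      have e1 : G z = ∑ n ∈ s, ‖x n‖ * g n (z n) := by
        simp [G, hT]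
      rw [e1, Real.norm_eq_abs]
      calc |∑ n ∈ s, ‖x n‖ * g n (z n)| ≤ ∑ n ∈ s, |‖x n‖ * g n (z n)| :=
            Finset.abs_sum_le_sum_abs _ _
        _ ≤ ∑ n ∈ s, ‖x n‖ * ‖z n‖ := by
            refine Finset.sum_le_sum fun n _ => ?_
            rw [abs_mul, abs_norm]
            refine mul_le_mul_of_nonneg_left ?_ (norm_nonneg _)
            have := (g n).le_opNorm (z n)
            rw [Real.norm_eq_abs] at this
            exact this.trans (mul_le_of_le_one_left (norm_nonneg _) (hg1 n))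
        _ ≤ Real.sqrt (∑ n ∈ s, ‖x n‖ ^ 2) * Real.sqrt (∑ n ∈ s, ‖z n‖ ^ 2) :=
            Real.sum_mul_le_sqrt_mul_sqrt _ _ _
        _ ≤ Real.sqrt S * ‖z‖ := by
            refine mul_le_mul_of_nonneg_left ?_ (Real.sqrt_nonneg _)
            rw [Real.sqrt_le_left (norm_nonneg _)]
            have := lp.sum_rpow_le_norm_rpow (p := 2) (by norm_num) z s
            rw [h3] at this
            simpa only [Real.rpow_two] using this
    have h5 : S ≤ ‖φ‖ * Real.sqrt S := by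
      calc S = φ G := hφG.symm
        _ ≤ ‖φ‖ * ‖G‖ := (le_abs_self _).trans (φ.le_opNorm G)
        _ ≤ ‖φ‖ * Real.sqrt S := by gcongr
    have h6 : Real.sqrt S ≤ ‖φ‖ := by
      by_contra hc
      push Not at hc
      have h0 : 0 ≤ ‖φ‖ := norm_nonneg φ
      have h7 : 0 < Real.sqrt S := lt_of_le_of_lt h0 hc
      nlinarith [Real.sq_sqrt hS0]
    calc S = Real.sqrt S ^ 2 := (Real.sq_sqrt hS0).symm
      _ ≤ ‖φ‖ ^ 2 := pow_le_pow_left₀ (Real.sqrt_nonneg _) h6 2
  let X : lp E 2 := ⟨x, hmem⟩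
  have hX : ∀ n, X n = x n := fun n => rfl
  refine ⟨X, fun F => ?_⟩
  -- `F ∘ psum N` as a continuous functional
  let R : ℕ → StrongDual ℝ (lp E 2) := fun N =>
    ∑ n ∈ Finset.range N, T n (F.comp (lp.singleContinuousLinearMap ℝ E 2 n))
  have hR : ∀ N z, R N z = F (psum N z) := by
    intro N z
    simp [R, hT, psum]
  have hφR : ∀ N, φ (R N) = F (psum N X) := by
    intro N
    simp only [R, map_sum, psum]
    refine Finset.sum_congr rfl fun n _ => ?_
    rw [← hx n]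
    rfl
  have hRlim : Tendsto R atTop (𝓝 F) := by
    rw [Metric.tendsto_atTop]
    intro ε hε
    obtain ⟨N₀, hN₀⟩ := exists_tail_small F (half_pos hε)
    refine ⟨N₀, fun N hN => ?_⟩
    rw [dist_eq_norm]
    refine lt_of_le_of_lt ?_ (half_lt_self hε)
    refine ContinuousLinearMap.opNorm_le_bound _ (half_pos hε).le fun w => ?_
    have := hN₀ N hN w
    rw [sub_apply, hR, Real.norm_eq_abs, abs_sub_comm, ← map_sub]
    exact this
  have l1 : Tendsto (fun N => φ (R N)) atTop (𝓝 (φ F)) :=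
    (φ.continuous.tendsto F).comp hRlim
  have l2 : Tendsto (fun N => φ (R N)) atTop (𝓝 (F X)) := by
    simp only [hφR]
    exact (F.continuous.tendsto X).comp (tendsto_psum X)
  exact tendsto_nhds_unique l2 l1

end sum

end Vale.Agent.P069
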