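import Vale.Agent.Lib.P069.Refl

/-!
# P069: renorming a Hilbert space by a bounded family of vectors

For a family `b` of vectors of a Hilbert space `H` the new norm is
`gn b x = inf_μ (‖x - ∑ μ_i b_i‖² + ‖μ‖₁²)^{1/2}` over finitely supported `μ`.
-/

open scoped ENNReal
open Filter Topology

namespace Vale.Agent.P069

section gn

variable {H : Type*} [NormedAddCommGroup H] [InnerProductSpace ℝ H] {ι : Type*} (b : ι → H)

/-- The `ℓ₁` norm of a finitely supported function. -/
noncomputable def l1 (μ : ι →₀ ℝ) : ℝ := μ.sum fun _ a => |a|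

theorem l1_eq (μ : ι →₀ ℝ) {s : Finset ι} (h : μ.support ⊆ s) : l1 μ = ∑ i ∈ s, |μ i| :=
  Finsupp.sum_of_support_subset _ h _ (by simp)

theorem l1_nonneg (μ : ι →₀ ℝ) : 0 ≤ l1 μ := Finset.sum_nonneg fun _ _ => abs_nonneg _

theorem l1_add_le (μ ν : ι →₀ ℝ) : l1 (μ + ν) ≤ l1 μ + l1 ν := by
  classical
  have h1 : μ.support ⊆ μ.support ∪ ν.support := Finset.subset_union_left
  have h2 : ν.support ⊆ μ.support ∪ ν.support := Finset.subset_union_right
  rw [l1_eq μ h1, l1_eq ν h2, l1_eq (μ + ν) Finsupp.support_add, ← Finset.sum_add_distrib]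
  exact Finset.sum_le_sum fun i _ => abs_add_le _ _

theorem l1_smul (c : ℝ) (μ : ι →₀ ℝ) : l1 (c • μ) = |c| * l1 μ := by
  rw [l1_eq (c • μ) Finsupp.support_smul, l1_eq μ subset_rfl, Finset.mul_sum]
  exact Finset.sum_congr rfl fun i _ => by simp [abs_mul]

theorem l1_single (i : ι) (a : ℝ) : l1 (Finsupp.single i a) = |a| := by
  unfold l1
  rw [Finsupp.sum_single_index (by simp)]

theorem l1_zero : l1 (0 : ι →₀ ℝ) = 0 := by simp [l1]

/-- The synthesis map `μ ↦ ∑ μ_i b_i`. -/
noncomputable def U : (ι →₀ ℝ) →ₗ[ℝ] H := Finsupp.linearCombination ℝ b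

theorem U_single (i : ι) : U b (Finsupp.single i 1) = b i := by simp [U]

theorem U_apply (μ : ι →₀ ℝ) : U b μ = μ.sum fun i a => a • b i := rfl

/-- The cost of a decomposition. -/
noncomputable def cost (x : H) (μ : ι →₀ ℝ) : ℝ := Real.sqrt (‖x - U b μ‖ ^ 2 + l1 μ ^ 2)

/-- The new norm. -/
noncomputable def gn (x : H) : ℝ := ⨅ μ : ι →₀ ℝ, cost b x μ

theorem cost_nonneg (x : H) (μ : ι →₀ ℝ) : 0 ≤ cost b x μ := Real.sqrt_nonneg _

theorem bddBelow_cost (x : H) : BddBelow (Set.range (cost b x)) :=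
  ⟨0, by rintro _ ⟨μ, rfl⟩; exact cost_nonneg b x μ⟩

theorem gn_nonneg (x : H) : 0 ≤ gn b x := le_ciInf fun μ => cost_nonneg b x μ

theorem gn_le_cost (x : H) (μ : ι →₀ ℝ) : gn b x ≤ cost b x μ := ciInf_le (bddBelow_cost b x) μ

theorem gn_sq_le (x : H) (μ : ι →₀ ℝ) : gn b x ^ 2 ≤ ‖x - U b μ‖ ^ 2 + l1 μ ^ 2 := by
  have h := gn_le_cost b x μ
  calc gn b x ^ 2 ≤ cost b x μ ^ 2 := pow_le_pow_left₀ (gn_nonneg b x) h 2
    _ = _ := Real.sq_sqrt (by positivity)

theorem exists_cost_lt (x : H) {r : ℝ} (hr : gn b x < r) : ∃ μ, cost b x μ < r :=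
  exists_lt_of_ciInf_lt hr

theorem gn_le_norm (x : H) : gn b x ≤ ‖x‖ := by
  refine (gn_le_cost b x 0).trans_eq ?_
  simp [cost, l1_zero]

theorem gn_b_le_one (i : ι) : gn b (b i) ≤ 1 := by
  refine (gn_le_cost b (b i) (Finsupp.single i 1)).trans_eq ?_
  simp [cost, l1_single, U_single]

theorem sqrt_add_le (a b c d : ℝ) :
    Real.sqrt ((a + c) ^ 2 + (b + d) ^ 2) ≤ Real.sqrt (a ^ 2 + b ^ 2) + Real.sqrt (c ^ 2 + d ^ 2) := by
  have h1 : 0 ≤ Real.sqrt (a ^ 2 + b ^ 2) := Real.sqrt_nonneg _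
  have h2 : 0 ≤ Real.sqrt (c ^ 2 + d ^ 2) := Real.sqrt_nonneg _
  rw [Real.sqrt_le_left (by positivity)]
  have e1 : Real.sqrt (a ^ 2 + b ^ 2) ^ 2 = a ^ 2 + b ^ 2 := Real.sq_sqrt (by positivity)
  have e2 : Real.sqrt (c ^ 2 + d ^ 2) ^ 2 = c ^ 2 + d ^ 2 := Real.sq_sqrt (by positivity)
  have e3 : a * c + b * d ≤ Real.sqrt (a ^ 2 + b ^ 2) * Real.sqrt (c ^ 2 + d ^ 2) := by
    rw [← Real.sqrt_mul (by positivity)]
    apply Real.le_sqrt_of_sq_le
    nlinarith [sq_nonneg (a * d - b * c)]
  nlinarith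

theorem gn_add_le (x y : H) : gn b (x + y) ≤ gn b x + gn b y := by
  refine le_of_forall_pos_le_add fun ε hε => ?_
  obtain ⟨μ, hμ⟩ := exists_cost_lt b x (lt_add_of_pos_right (gn b x) (half_pos hε))
  obtain ⟨ν, hν⟩ := exists_cost_lt b y (lt_add_of_pos_right (gn b y) (half_pos hε))
  have h1 : cost b (x + y) (μ + ν) ≤ cost b x μ + cost b y ν := by
    unfold cost
    refine le_trans (Real.sqrt_le_sqrt ?_) (sqrt_add_le ‖x - U b μ‖ (l1 μ) ‖y - U b ν‖ (l1 ν))
    have e1 : ‖x + y - U b (μ + ν)‖ ≤ ‖x - U b μ‖ + ‖y - U b ν‖ := by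
      rw [map_add, add_sub_add_comm]
      exact norm_add_le _ _
    have e2 := l1_add_le μ ν
    have e3 := l1_nonneg (μ + ν)
    gcongr
  linarith [gn_le_cost b (x + y) (μ + ν)]

theorem gn_smul_le (c : ℝ) (x : H) : gn b (c • x) ≤ |c| * gn b x := by
  have h : ∀ μ, gn b (c • x) ≤ |c| * cost b x μ := by
    intro μ
    refine (gn_le_cost b (c • x) (c • μ)).trans_eq ?_
    unfold cost
    rw [map_smul, ← smul_sub, norm_smul, l1_smul, mul_pow, mul_pow, Real.norm_eq_abs, ← mul_add,
      Real.sqrt_mul (by positivity), Real.sqrt_sq (abs_nonneg c)]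
  rw [gn.eq_def b x, Real.mul_iInf_of_nonneg (abs_nonneg c)]
  exact le_ciInf h

theorem norm_le_gn {K : ℝ} (hK : 0 ≤ K) (hb : ∀ i, ‖b i‖ ≤ K) (x : H) :
    ‖x‖ ≤ (1 + K) * gn b x := by
  have h : ∀ μ, ‖x‖ ≤ (1 + K) * cost b x μ := by
    intro μ
    have h1 : ‖U b μ‖ ≤ K * l1 μ := by
      rw [U_apply, l1, Finsupp.sum, Finsupp.sum, Finset.mul_sum]
      refine (norm_sum_le _ _).trans (Finset.sum_le_sum fun i _ => ?_)
      rw [norm_smul, Real.norm_eq_abs, mul_comm]
      exact mul_le_mul_of_nonneg_right (hb i) (abs_nonneg _)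
    have h2 : ‖x - U b μ‖ ≤ cost b x μ := by
      apply Real.le_sqrt_of_sq_le
      nlinarith [sq_nonneg (l1 μ)]
    have h3 : l1 μ ≤ cost b x μ := by
      apply Real.le_sqrt_of_sq_le
      nlinarith [sq_nonneg ‖x - U b μ‖]
    calc ‖x‖ = ‖(x - U b μ) + U b μ‖ := by rw [sub_add_cancel]
      _ ≤ ‖x - U b μ‖ + ‖U b μ‖ := norm_add_le _ _
      _ ≤ cost b x μ + K * cost b x μ := by
          refine add_le_add h2 (h1.trans ?_)
          exact mul_le_mul_of_nonneg_left h3 hK
      _ = _ := by ring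
  rw [gn, Real.mul_iInf_of_nonneg (by positivity)]
  exact le_ciInf h

theorem gn_zero : gn b 0 = 0 := by
  have := gn_smul_le b 0 0
  simp only [zero_smul, abs_zero, zero_mul] at this
  exact le_antisymm this (gn_nonneg b 0)

theorem gn_neg (x : H) : gn b (-x) = gn b x := by
  have h1 := gn_smul_le b (-1) x
  have h2 := gn_smul_le b (-1) (-x)
  simp only [neg_smul, one_smul, abs_neg, abs_one, one_mul, neg_neg] at h1 h2
  exact le_antisymm h1 h2

end gn

section specific

/-- The Hilbert space `ℓ²` indexed by finite sequences of natural numbers. -/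
abbrev HH : Type := lp (fun _ : List ℕ => ℝ) 2

/-- The branch vectors: `bvec n s` is the sum of the unit vectors over all the tails `t` of `s`
with `length t ≤ n`. -/
noncomputable def bvec (n : ℕ) : List ℕ → HH
  | [] => lp.single 2 [] 1
  | (m :: l) => bvec n l + (if l.length < n then lp.single 2 (m :: l) 1 else 0)

theorem norm_bvec_le (n : ℕ) (s : List ℕ) : ‖bvec n s‖ ≤ 1 + n := by
  have h : ‖bvec n s‖ ≤ 1 + (min s.length n : ℕ) := by
    induction s with
    | nil =>
      rw [bvec, lp.norm_single (by norm_num)]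
      simp
    | cons m l ih =>
      rw [bvec]
      split_ifs with h
      · refine (norm_add_le _ _).trans ?_
        rw [lp.norm_single (by norm_num)]
        have : min (m :: l).length n = min l.length n + 1 := by
          simp only [List.length_cons]
          omega
        rw [this]
        push_cast at ih ⊢
        simp only [norm_one]
        linarith
      · rw [add_zero]
        have : min (m :: l).length n = min l.length n := by
          simp only [List.length_cons]
          omega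
        rw [this]
        exact ih
  refine h.trans ?_
  have : ((min s.length n : ℕ) : ℝ) ≤ n := by exact_mod_cast min_le_right _ _
  linarith

/-- `HH` with the new norm. -/
def XX (_n : ℕ) : Type := HH

variable (n : ℕ)

noncomputable instance : AddCommGroup (XX n) := inferInstanceAs (AddCommGroup HH)

noncomputable instance : Module ℝ (XX n) := inferInstanceAs (Module ℝ HH)

/-- The identity map `XX n → HH`. -/
noncomputable def toHH : XX n ≃ₗ[ℝ] HH := LinearEquiv.refl ℝ HH

noncomputable instance : NormedAddCommGroup (XX n) :=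
  AddGroupNorm.toNormedAddCommGroup
    { toFun := fun x => gn (bvec n) (toHH n x)
      map_zero' := gn_zero _
      add_le' := fun x y => by rw [map_add]; exact gn_add_le _ _ _
      neg' := fun x => by rw [map_neg]; exact gn_neg _ _
      eq_zero_of_map_eq_zero' := fun x hx => by
        have h := norm_le_gn (bvec n) (K := 1 + n) (by positivity) (norm_bvec_le n) (toHH n x)
        change gn (bvec n) (toHH n x) = 0 at hx
        rw [hx, mul_zero] at h
        have h2 : toHH n x = 0 := norm_le_zero_iff.mp h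
        exact (LinearEquiv.map_eq_zero_iff _).mp h2 }

theorem norm_XX (x : XX n) : ‖x‖ = gn (bvec n) (toHH n x) := rfl

noncomputable instance : NormedSpace ℝ (XX n) where
  norm_smul_le c x := by
    rw [norm_XX, norm_XX, map_smul]
    exact gn_smul_le _ _ _

theorem norm_XX_le (x : XX n) : ‖x‖ ≤ ‖toHH n x‖ := gn_le_norm _ _

theorem norm_le_XX (x : XX n) : ‖toHH n x‖ ≤ (2 + n) * ‖x‖ := by
  have h := norm_le_gn (bvec n) (K := 1 + n) (by positivity) (norm_bvec_le n) (toHH n x)
  rw [norm_XX]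
  linarith

/-- The isomorphism between `XX n` and `HH`. -/
noncomputable def eHH : XX n ≃L[ℝ] HH :=
  (toHH n).toContinuousLinearEquivOfBounds (2 + n) 1 (norm_le_XX n) (fun x => by
    have := norm_XX_le n ((toHH n).symm x)
    rw [LinearEquiv.apply_symm_apply] at this
    linarith)

theorem eHH_apply (x : XX n) : eHH n x = toHH n x := rfl

instance : CompleteSpace (XX n) :=
  ((completeSpace_congr (e := (eHH n).toEquiv) (eHH n).isUniformEmbedding).mpr inferInstance)

theorem isReflexive_XX : IsReflexive (XX n) :=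
  (isReflexive_hilbert (H := HH)).congr (eHH n).symm

/-- Norming vectors. -/
theorem exists_dual (y : HH) :
    ∃ v : HH, inner ℝ v y = gn (bvec n) y ∧ ∀ z, |inner ℝ v z| ≤ gn (bvec n) z := by
  obtain ⟨g, hg1, hg2⟩ := exists_dual_vector'' ℝ ((toHH n).symm y)
  let f : StrongDual ℝ HH := g.comp ((eHH n).symm : HH →L[ℝ] XX n)
  refine ⟨(InnerProductSpace.toDual ℝ HH).symm f, ?_, fun z => ?_⟩
  · rw [InnerProductSpace.toDual_symm_apply]
    exact hg2
  · rw [InnerProductSpace.toDual_symm_apply]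
    have := g.le_opNorm ((toHH n).symm z)
    rw [Real.norm_eq_abs, norm_XX, LinearEquiv.apply_symm_apply] at this
    exact this.trans (mul_le_of_le_one_left (gn_nonneg _ _) hg1)

end specific

end Vale.Agent.P069
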