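import Vale.Agent.Lib.P069.Key

/-!
# P069: the `ℓ²`-sum is reflexive, infinite-dimensional and AMUC
-/

open scoped ENNReal
open Filter Topology

namespace Vale.Agent.P069

/-- The space: the `ℓ²`-sum of the renormed Hilbert spaces `XX n`. -/
abbrev SX : Type := lp XX 2

theorem isReflexive_SX : IsReflexive SX := isReflexive_lp isReflexive_XX

/-- embedding of the `n`-th piece, from `HH`. -/
noncomputable def emb (n : ℕ) (f : HH) : SX := lp.single 2 n ((toHH n).symm f)

theorem norm_emb (n : ℕ) (f : HH) : ‖emb n f‖ = gn (bvec n) f := by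
  rw [emb, lp.norm_single (by norm_num), norm_XX, LinearEquiv.apply_symm_apply]

theorem emb_add (n : ℕ) (f g : HH) : emb n (f + g) = emb n f + emb n g := by
  rw [emb, map_add, lp.single_add]; rfl

theorem emb_smul (n : ℕ) (c : ℝ) (f : HH) : emb n (c • f) = c • emb n f := by
  rw [emb, map_smul, lp.single_smul]; rfl

/-- `emb` as a continuous linear map. -/
noncomputable def embL (n : ℕ) : HH →L[ℝ] SX :=
  LinearMap.mkContinuous
    { toFun := emb n
      map_add' := emb_add n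
      map_smul' := emb_smul n } 1 (fun f => by
        rw [one_mul]
        exact (norm_emb n f).trans_le (gn_le_norm _ _))

theorem embL_apply (n : ℕ) (f : HH) : embL n f = emb n f := rfl

/-- Coordinate functionals. -/
noncomputable def coo (n : ℕ) (t : List ℕ) : SX →L[ℝ] ℝ :=
  (lp.evalCLM ℝ (fun _ : List ℕ => ℝ) 2 t).comp
    (((eHH n) : XX n →L[ℝ] HH).comp (lp.evalCLM ℝ XX 2 n))

theorem coo_apply (n : ℕ) (t : List ℕ) (x : SX) : coo n t x = toHH n (x n) t := rfl

/-- The finite-codimensional subspaces. -/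
noncomputable def FS (N : ℕ) (O : Finset (List ℕ)) : Submodule ℝ SX :=
  LinearMap.ker ((ContinuousLinearMap.pi fun i : Fin N × O => coo i.1 i.2.1 :
    SX →L[ℝ] (Fin N × O → ℝ)) : SX →ₗ[ℝ] (Fin N × O → ℝ))

theorem mem_FS {N : ℕ} {O : Finset (List ℕ)} {y : SX} :
    y ∈ FS N O ↔ ∀ n < N, ∀ t ∈ O, toHH n (y n) t = 0 := by
  rw [FS, LinearMap.mem_ker]
  constructor
  · intro h n hn t ht
    have := congrFun h (⟨n, hn⟩, ⟨t, ht⟩)
    exact this
  · intro h
    ext ⟨⟨n, hn⟩, ⟨t, ht⟩⟩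
    exact h n hn t ht

theorem FS_mem_cof (N : ℕ) (O : Finset (List ℕ)) : FS N O ∈ cof SX := by
  constructor
  · exact ContinuousLinearMap.isClosed_ker
      (ContinuousLinearMap.pi fun i : Fin N × O => coo i.1 i.2.1 : SX →L[ℝ] (Fin N × O → ℝ))
  · unfold FS
    exact Module.Finite.equiv (LinearMap.quotKerEquivRange _).symm

/-- Vectors supported in the first `N` summands and there on `O`. -/
def Supp (N : ℕ) (O : Finset (List ℕ)) (x : SX) : Prop :=
  (∀ n < N, res O (toHH n (x n)) = toHH n (x n)) ∧ ∀ n, N ≤ n → x n = 0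

theorem hasSum_norm_sq {E : ℕ → Type*} [∀ n, NormedAddCommGroup (E n)] (x : lp E 2) :
    HasSum (fun n => ‖x n‖ ^ 2) (‖x‖ ^ 2) := by
  have h := lp.hasSum_norm (p := 2) (by norm_num) x
  have h3 : (2 : ℝ≥0∞).toReal = 2 := by norm_num
  rw [h3] at h
  simpa only [Real.rpow_two] using h

theorem key_SX {N : ℕ} {O : Finset (List ℕ)} (hO : TC O) {x y : SX} (hx : Supp N O x)
    (hy : y ∈ FS N O) :
    ‖x‖ ^ 2 + ‖y‖ ^ 2 / 26 ≤ (‖x + y‖ ^ 2 + ‖x - y‖ ^ 2) / 2 := by
  have h1 := (hasSum_norm_sq x).add ((hasSum_norm_sq y).div_const 26)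
  have h2 := ((hasSum_norm_sq (x + y)).add (hasSum_norm_sq (x - y))).div_const 2
  refine hasSum_le (fun n => ?_) h1 h2
  rw [lp.coeFn_add, lp.coeFn_sub, Pi.add_apply, Pi.sub_apply]
  by_cases hn : n < N
  · have hy' : res O (toHH n (y n)) = 0 := by
      ext t
      rw [res_apply]
      split_ifs with ht
      · exact mem_FS.mp hy n hn t ht
      · rfl
    have := key' n hO (toHH n (x n)) (toHH n (y n)) (hx.1 n hn) hy'
    rw [← map_add, ← map_sub] at this
    exact this
  · rw [hx.2 n (not_lt.mp hn)]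
    simp only [norm_zero, zero_add, zero_sub, norm_neg]
    nlinarith [sq_nonneg ‖y n‖]

/-- Tail closure of a finite set. -/
def tcl (O : Finset (List ℕ)) : Finset (List ℕ) :=
  insert [] (O.biUnion fun s => s.tails.toFinset)

theorem tcl_TC (O : Finset (List ℕ)) : TC (tcl O) := by
  refine ⟨Finset.mem_insert_self _ _, fun m l h => ?_⟩
  rw [tcl, Finset.mem_insert, Finset.mem_biUnion] at h ⊢
  rcases h with h | ⟨s, hs, h⟩
  · exact absurd h (by simp)
  · right
    refine ⟨s, hs, ?_⟩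
    rw [List.mem_toFinset, List.mem_tails] at h ⊢
    exact (List.suffix_cons m l).trans h

theorem subset_tcl (O : Finset (List ℕ)) : O ⊆ tcl O := by
  intro s hs
  rw [tcl, Finset.mem_insert, Finset.mem_biUnion]
  right
  exact ⟨s, hs, by rw [List.mem_toFinset, List.mem_tails]⟩

theorem tendsto_res (f : HH) : Tendsto (fun O => res O f) atTop (𝓝 f) :=
  lp.hasSum_single (p := 2) (by norm_num) f

theorem exists_supp_approx (x : SX) {ε : ℝ} (hε : 0 < ε) :
    ∃ (N : ℕ) (O : Finset (List ℕ)) (x' : SX), TC O ∧ Supp N O x' ∧ ‖x - x'‖ < ε := by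
  obtain ⟨N, hN⟩ := ((Metric.tendsto_nhds.mp (tendsto_psum x)) (ε / 2) (half_pos hε)).exists
  let A : Finset (List ℕ) → SX := fun O =>
    ∑ n ∈ Finset.range N, emb n (res O (toHH n (x n)))
  have hA : Tendsto A atTop (𝓝 (psum N x)) := by
    have : psum N x = ∑ n ∈ Finset.range N, emb n (toHH n (x n)) := by
      unfold psum emb
      simp
    rw [this]
    refine tendsto_finsetSum _ fun n _ => ?_
    exact ((embL n).continuous.tendsto _).comp (tendsto_res (toHH n (x n)))
  obtain ⟨O₀, hO₀⟩ := ((Metric.tendsto_nhds.mp hA) (ε / 2) (half_pos hε)).exists_forall_of_atTop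
  refine ⟨N, tcl O₀, A (tcl O₀), tcl_TC _, ⟨fun n hn => ?_, fun n hn => ?_⟩, ?_⟩
  · have : A (tcl O₀) n = (toHH n).symm (res (tcl O₀) (toHH n (x n))) := by
      simp only [A, emb, lp.coeFn_sum, Finset.sum_apply, lp.coeFn_single]
      rw [Finset.sum_eq_single n]
      · rw [Pi.single_eq_same]
      · intro b _ hb
        rw [Pi.single_eq_of_ne hb.symm]
      · intro h
        exact absurd (Finset.mem_range.mpr hn) h
    rw [this, LinearEquiv.apply_symm_apply]
    ext t
    rw [res_apply, res_apply]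
    split_ifs <;> rfl
  · simp only [A, emb, lp.coeFn_sum, Finset.sum_apply, lp.coeFn_single]
    refine Finset.sum_eq_zero fun b hb => ?_
    rw [Finset.mem_range] at hb
    rw [Pi.single_eq_of_ne (by omega)]
  · have h1 := hO₀ (tcl O₀) (subset_tcl O₀)
    rw [dist_comm, dist_eq_norm] at hN h1
    calc ‖x - A (tcl O₀)‖ = ‖(x - psum N x) + (psum N x - A (tcl O₀))‖ := by
          rw [sub_add_sub_cancel]
      _ ≤ ‖x - psum N x‖ + ‖psum N x - A (tcl O₀)‖ := norm_add_le _ _
      _ < ε / 2 + ε / 2 := add_lt_add hN h1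
      _ = ε := by ring


/-! ### coordinate bounds and infinite-dimensionality -/

theorem bvec_apply_zero (n : ℕ) (s t : List ℕ) (h : s.length < t.length) : bvec n s t = 0 := by
  induction s with
  | nil =>
    rw [bvec, lp.single_apply, Pi.single_eq_of_ne]
    intro h2; subst h2; simp at h
  | cons m l ih =>
    have h1 : l.length < t.length := by
      simp only [List.length_cons] at h; omega
    rw [bvec, lp.coeFn_add, Pi.add_apply, ih h1, zero_add]
    split_ifs
    · rw [lp.single_apply, Pi.single_eq_of_ne]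
      intro h2; subst h2; simp at h
    · rfl

theorem bvec_apply_bound (n : ℕ) (s t : List ℕ) : 0 ≤ bvec n s t ∧ bvec n s t ≤ 1 := by
  induction s with
  | nil =>
    rw [bvec, lp.single_apply]
    by_cases h : t = []
    · subst h; simp
    · rw [Pi.single_eq_of_ne h]; simp
  | cons m l ih =>
    rw [bvec, lp.coeFn_add, Pi.add_apply]
    split_ifs
    · by_cases h : t = m :: l
      · subst h
        rw [bvec_apply_zero n l _ (by simp), lp.single_apply]; simp
      · rw [lp.single_apply, Pi.single_eq_of_ne h, add_zero]; exact ih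
    · change 0 ≤ bvec n l t + 0 ∧ bvec n l t + 0 ≤ 1
      rw [add_zero]; exact ih

theorem abs_apply_le_gn (n : ℕ) (f : HH) (t : List ℕ) : |f t| ≤ 2 * gn (bvec n) f := by
  have h : ∀ μ, |f t| ≤ 2 * cost (bvec n) f μ := by
    intro μ
    have h1 : |U (bvec n) μ t| ≤ l1 μ := by
      rw [U_apply, l1, Finsupp.sum, Finsupp.sum, lp.coeFn_sum, Finset.sum_apply]
      refine (Finset.abs_sum_le_sum_abs _ _).trans (Finset.sum_le_sum fun i _ => ?_)
      rw [lp.coeFn_smul, Pi.smul_apply, smul_eq_mul, abs_mul]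
      have h2 := bvec_apply_bound n i t
      have h3 : |bvec n i t| ≤ 1 := abs_le.mpr ⟨by linarith, h2.2⟩
      exact mul_le_of_le_one_right (abs_nonneg _) h3
    have h2 : |(f - U (bvec n) μ) t| ≤ ‖f - U (bvec n) μ‖ :=
      lp.norm_apply_le_norm (by norm_num) (f - U (bvec n) μ) t
    have h3 : ‖f - U (bvec n) μ‖ ≤ cost (bvec n) f μ := by
      apply Real.le_sqrt_of_sq_le
      nlinarith [sq_nonneg (l1 μ)]
    have h4 : l1 μ ≤ cost (bvec n) f μ := by
      apply Real.le_sqrt_of_sq_le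
      nlinarith [sq_nonneg ‖f - U (bvec n) μ‖]
    have h5 : f t = (f - U (bvec n) μ) t + U (bvec n) μ t := by
      rw [lp.coeFn_sub, Pi.sub_apply, sub_add_cancel]
    calc |f t| = |(f - U (bvec n) μ) t + U (bvec n) μ t| := by rw [← h5]
      _ ≤ |(f - U (bvec n) μ) t| + |U (bvec n) μ t| := abs_add_le _ _
      _ ≤ 2 * cost (bvec n) f μ := by linarith
  rw [gn, Real.mul_iInf_of_nonneg (by norm_num)]
  exact le_ciInf h

theorem not_finiteDimensional_SX : ¬ FiniteDimensional ℝ SX := by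
  intro hfin
  have hli : LinearIndependent ℝ (fun m : ℕ => emb 0 (lp.single 2 [m] (1 : ℝ))) := by
    rw [linearIndependent_iff']
    intro s g hg i hi
    have h1 := congrArg (coo 0 [i]) hg
    rw [map_sum, map_zero, Finset.sum_eq_single i] at h1
    · rw [map_smul, coo_apply] at h1
      simpa [emb] using h1
    · intro b _ hb
      rw [map_smul, coo_apply]
      have : ([i] : List ℕ) ≠ [b] := by simpa using hb.symm
      simp [emb, lp.single_apply, this]
    · intro h; exact absurd hi h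
  exact Module.Finite.not_linearIndependent_of_infinite _ hli

theorem exists_norm_one_mem {X : Type*} [NormedAddCommGroup X] [NormedSpace ℝ X]
    (hX : ¬ FiniteDimensional ℝ X) (N : Seminorm ℝ X) (hN : IsEquivalentNorm N)
    {F : Submodule ℝ X} (hF : F ∈ cof X) : ∃ y ∈ F, N y = 1 := by
  obtain ⟨c, C, hc, hcC⟩ := hN
  have h1 : F ≠ ⊥ := by
    intro h
    apply hX
    have := hF.2
    subst h
    exact Module.Finite.equiv (Submodule.quotEquivOfEqBot ⊥ rfl)
  obtain ⟨y, hy, hy0⟩ := Submodule.exists_mem_ne_zero_of_ne_bot h1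
  have hNy : 0 < N y := lt_of_lt_of_le (mul_pos hc (norm_pos_iff.mpr hy0)) (hcC y).1
  refine ⟨(N y)⁻¹ • y, F.smul_mem _ hy, ?_⟩
  rw [map_smul_eq_mul, norm_inv, Real.norm_eq_abs, abs_of_pos hNy, inv_mul_cancel₀ hNy.ne']

theorem isEquivalentNorm_norm (X : Type*) [NormedAddCommGroup X] [NormedSpace ℝ X] :
    IsEquivalentNorm (normSeminorm ℝ X) :=
  ⟨1, 1, one_pos, fun x => by simp⟩

theorem amucModulus_SX_ge {t : ℝ} (ht : 0 < t) :
    Real.sqrt (1 + t ^ 2 / 26) - 1 ≤ amucModulus (normSeminorm ℝ SX) t := by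
  have hsph : ∃ x : SX, normSeminorm ℝ SX x = 1 := by
    obtain ⟨y, -, hy⟩ := exists_norm_one_mem not_finiteDimensional_SX _
      (isEquivalentNorm_norm SX) (FS_mem_cof 0 ∅)
    exact ⟨y, hy⟩
  have : Nonempty {x : SX // normSeminorm ℝ SX x = 1} := nonempty_subtype.mpr hsph
  unfold amucModulus
  refine le_ciInf fun x => ?_
  obtain ⟨x, hx⟩ := x
  rw [coe_normSeminorm] at hx
  simp only [coe_normSeminorm]
  -- bounded above
  have hbdd : BddAbove (Set.range fun F : cof SX => ⨅ y : {y : SX // y ∈ F.1 ∧ ‖y‖ = 1},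
      (max ‖x + t • y.1‖ ‖x - t • y.1‖ - 1)) := by
    refine ⟨t, ?_⟩
    rintro _ ⟨F, rfl⟩
    obtain ⟨y, hyF, hy⟩ := exists_norm_one_mem not_finiteDimensional_SX _
      (isEquivalentNorm_norm SX) F.2
    rw [coe_normSeminorm] at hy
    have hb : BddBelow (Set.range fun y : {y : SX // y ∈ F.1 ∧ ‖y‖ = 1} =>
        (max ‖x + t • y.1‖ ‖x - t • y.1‖ - 1)) := by
      refine ⟨-1, ?_⟩
      rintro _ ⟨y, rfl⟩
      have := (norm_nonneg (x + t • y.1)).trans (le_max_left _ ‖x - t • y.1‖)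
      simp only
      linarith
    refine (ciInf_le hb ⟨y, hyF, hy⟩).trans ?_
    have h1 : ‖x + t • y‖ ≤ 1 + t := by
      refine (norm_add_le _ _).trans ?_
      rw [hx, norm_smul, hy, Real.norm_eq_abs, abs_of_pos ht, mul_one]
    have h2 : ‖x - t • y‖ ≤ 1 + t := by
      refine (norm_sub_le _ _).trans ?_
      rw [hx, norm_smul, hy, Real.norm_eq_abs, abs_of_pos ht, mul_one]
    have h3 := max_le h1 h2
    simp only
    linarith
  -- the approximation
  refine le_of_forall_pos_le_add fun ε hε => ?_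
  obtain ⟨η, hη, hη1, hη2⟩ : ∃ η : ℝ, 0 < η ∧ η < 1 ∧
      Real.sqrt (1 + t ^ 2 / 26) - 1 - ε ≤ Real.sqrt ((1 - η) ^ 2 + t ^ 2 / 26) - η - 1 := by
    have hcont : Tendsto (fun η : ℝ => Real.sqrt ((1 - η) ^ 2 + t ^ 2 / 26) - η - 1) (𝓝[>] 0)
        (𝓝 (Real.sqrt ((1 - 0) ^ 2 + t ^ 2 / 26) - 0 - 1)) := by
      apply tendsto_nhdsWithin_of_tendsto_nhds
      apply Continuous.tendsto
      fun_prop
    have h1 : Real.sqrt (1 + t ^ 2 / 26) - 1 - ε <
        Real.sqrt ((1 - 0) ^ 2 + t ^ 2 / 26) - 0 - 1 := by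
      norm_num
      exact hε
    have h2 := (hcont.eventually (lt_mem_nhds h1)).and
      ((eventually_mem_nhdsWithin).and (nhdsWithin_le_nhds (gt_mem_nhds (zero_lt_one (α := ℝ)))))
    obtain ⟨η, e1, e2, e3⟩ := h2.exists
    exact ⟨η, e2, e3, e1.le⟩
  obtain ⟨N, O, x', hO, hx', hxx'⟩ := exists_supp_approx x hη
  have hle : Real.sqrt (1 + t ^ 2 / 26) - 1 - ε ≤
      ⨅ y : {y : SX // y ∈ FS N O ∧ ‖y‖ = 1}, (max ‖x + t • y.1‖ ‖x - t • y.1‖ - 1) := by
    have : Nonempty {y : SX // y ∈ FS N O ∧ ‖y‖ = 1} := by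
      obtain ⟨y, hyF, hy⟩ := exists_norm_one_mem not_finiteDimensional_SX _
        (isEquivalentNorm_norm SX) (FS_mem_cof N O)
      exact ⟨⟨y, hyF, hy⟩⟩
    refine le_ciInf fun y => ?_
    obtain ⟨y, hyF, hy⟩ := y
    simp only
    have h1 := key_SX hO hx' ((FS N O).smul_mem t hyF)
    rw [norm_smul, hy, Real.norm_eq_abs, abs_of_pos ht, mul_one] at h1
    set M := max ‖x + t • y‖ ‖x - t • y‖ with hM
    have hM1 : ‖x' + t • y‖ ≤ M + η := by
      calc ‖x' + t • y‖ = ‖(x + t • y) - (x - x')‖ := by congr 1; abel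
        _ ≤ ‖x + t • y‖ + ‖x - x'‖ := norm_sub_le _ _
        _ ≤ M + η := add_le_add (le_max_left _ _) hxx'.le
    have hM2 : ‖x' - t • y‖ ≤ M + η := by
      calc ‖x' - t • y‖ = ‖(x - t • y) - (x - x')‖ := by congr 1; abel
        _ ≤ ‖x - t • y‖ + ‖x - x'‖ := norm_sub_le _ _
        _ ≤ M + η := add_le_add (le_max_right _ _) hxx'.le
    have hM0 : 0 ≤ M + η := (norm_nonneg _).trans hM1
    have hx'1 : 1 - η ≤ ‖x'‖ := by
      have : ‖x‖ ≤ ‖x'‖ + ‖x - x'‖ := by
        calc ‖x‖ = ‖x' + (x - x')‖ := by congr 1; abel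
          _ ≤ _ := norm_add_le _ _
      linarith
    have h2 : (1 - η) ^ 2 ≤ ‖x'‖ ^ 2 := pow_le_pow_left₀ (by linarith) hx'1 2
    have h3 : ‖x' + t • y‖ ^ 2 ≤ (M + η) ^ 2 := pow_le_pow_left₀ (norm_nonneg _) hM1 2
    have h4 : ‖x' - t • y‖ ^ 2 ≤ (M + η) ^ 2 := pow_le_pow_left₀ (norm_nonneg _) hM2 2
    have h5 : Real.sqrt ((1 - η) ^ 2 + t ^ 2 / 26) ≤ M + η := by
      rw [Real.sqrt_le_left hM0]
      linarith
    linarith
  have := hle.trans (le_ciSup hbdd ⟨FS N O, FS_mem_cof N O⟩)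
  linarith

end Vale.Agent.P069
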